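import Mathlib

set_option autoImplicit false
set_option linter.unusedSectionVars false
set_option linter.unusedSimpArgs false

namespace Crest.Agent.R341

open Matrix
open scoped ComplexOrder MatrixOrder

variable {n : Type*} [Fintype n] [DecidableEq n]

/-- real part of the determinant -/
noncomputable def rdet (M : Matrix n n ℂ) : ℝ := M.det.re

theorem rdet_coe {M : Matrix n n ℂ} (h : M.IsHermitian) : (rdet M : ℂ) = M.det := by
  have : M.det = ((∏ i, h.eigenvalues i : ℝ) : ℂ) := by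
    rw [h.det_eq_prod_eigenvalues]; push_cast; rfl
  unfold rdet
  rw [this, Complex.ofReal_re]

theorem rdet_eq_prod {M : Matrix n n ℂ} (h : M.IsHermitian) :
    rdet M = ∏ i, h.eigenvalues i := by
  apply Complex.ofReal_injective
  rw [rdet_coe h, h.det_eq_prod_eigenvalues]
  push_cast; rfl

theorem rdet_pos {M : Matrix n n ℂ} (h : M.PosDef) : 0 < rdet M := by
  rw [rdet_eq_prod h.1]
  exact Finset.prod_pos fun i _ => h.eigenvalues_pos i

theorem det_unit {M : Matrix n n ℂ} (h : M.PosDef) : IsUnit M.det :=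
  (Matrix.isUnit_iff_isUnit_det M).1 h.isUnit

/-- spectral theorem in plain form -/
theorem spec {M : Matrix n n ℂ} (h : M.IsHermitian) :
    ∃ U : Matrix n n ℂ, U * Uᴴ = 1 ∧ Uᴴ * U = 1 ∧
      M = U * diagonal (fun i => ((h.eigenvalues i : ℝ) : ℂ)) * Uᴴ := by
  refine ⟨h.eigenvectorUnitary, ?_, ?_, ?_⟩
  · exact (Matrix.mem_unitaryGroup_iff).1 h.eigenvectorUnitary.2
  · exact (Matrix.mem_unitaryGroup_iff').1 h.eigenvectorUnitary.2
  · have := h.spectral_theorem
    rw [Unitary.conjStarAlgAut_apply] at this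
    exact this

theorem det_conj {U : Matrix n n ℂ} (hU : U * Uᴴ = 1) (M : Matrix n n ℂ) :
    (U * M * Uᴴ).det = M.det := by
  have : U.det * Uᴴ.det = 1 := by rw [← det_mul, hU, det_one]
  rw [det_mul, det_mul]
  linear_combination M.det * this

theorem rdet_smul_add {M : Matrix n n ℂ} (h : M.IsHermitian) (τ : ℝ) :
    rdet ((τ : ℂ) • (1 : Matrix n n ℂ) + M) = ∏ i, (τ + h.eigenvalues i) := by
  obtain ⟨U, h1, -, h3⟩ := spec h
  have e : (τ : ℂ) • (1 : Matrix n n ℂ) + M =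
      U * diagonal (fun i => ((τ + h.eigenvalues i : ℝ) : ℂ)) * Uᴴ := by
    have : diagonal (fun i => ((τ + h.eigenvalues i : ℝ) : ℂ)) =
        (τ : ℂ) • (1 : Matrix n n ℂ) + diagonal (fun i => ((h.eigenvalues i : ℝ) : ℂ)) := by
      ext i j
      by_cases hij : i = j
      · subst hij; simp
      · simp [hij]
    rw [this, Matrix.mul_add, Matrix.add_mul, ← h3, Matrix.mul_smul, Matrix.mul_one,
      Matrix.smul_mul, h1]
  unfold rdet
  rw [e, det_conj h1, det_diagonal]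
  have : (∏ i, ((τ + h.eigenvalues i : ℝ) : ℂ)) = ((∏ i, (τ + h.eigenvalues i) : ℝ) : ℂ) := by
    push_cast; rfl
  rw [this, Complex.ofReal_re]

theorem one_le_rdet {H : Matrix n n ℂ} (h : H.PosSemidef) : 1 ≤ rdet (1 + H) := by
  have := rdet_smul_add h.1 1
  simp only [Complex.ofReal_one, one_smul] at this
  rw [this]
  exact Finset.one_le_prod fun i _ => by linarith [h.eigenvalues_nonneg i]

theorem rdet_mono {A B : Matrix n n ℂ} (hA : A.PosDef) (h : (B - A).PosSemidef) :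
    rdet A ≤ rdet B := by
  obtain ⟨L, hL⟩ := CStarAlgebra.nonneg_iff_eq_star_mul_self.mp hA.posSemidef.nonneg
  rw [star_eq_conjTranspose] at hL
  have hu : IsUnit L.det := by
    have := det_unit hA
    rw [hL, det_mul] at this
    exact isUnit_of_mul_isUnit_right this
  have hu' : IsUnit Lᴴ.det := by rw [det_conjTranspose]; exact hu.star
  have hH := h.conjTranspose_mul_mul_same L⁻¹
  have e : B = Lᴴ * (1 + L⁻¹ᴴ * (B - A) * L⁻¹) * L := by
    rw [Matrix.mul_add, Matrix.add_mul, Matrix.mul_one, ← hL, conjTranspose_nonsing_inv]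
    simp only [Matrix.mul_assoc]
    rw [Matrix.mul_nonsing_inv_cancel_left _ _ hu', nonsing_inv_mul _ hu, Matrix.mul_one]
    abel
  have h1 := one_le_rdet hH
  have hH' : (1 + L⁻¹ᴴ * (B - A) * L⁻¹).IsHermitian := isHermitian_one.add hH.1
  have e2 : B.det = A.det * (1 + L⁻¹ᴴ * (B - A) * L⁻¹).det := by
    conv_lhs => rw [e]
    conv_rhs => lhs; rw [hL]
    rw [det_mul, det_mul, det_mul]; ring
  have e3 : rdet B = rdet A * rdet (1 + L⁻¹ᴴ * (B - A) * L⁻¹) := by
    unfold rdet at *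
    rw [e2, ← rdet_coe hA.1, ← rdet_coe hH']
    simp
  rw [e3]
  nlinarith [rdet_pos hA]

theorem posDef_of_le {A B : Matrix n n ℂ} (hA : A.PosDef) (h : (B - A).PosSemidef) :
    B.PosDef := by
  have := hA.add_posSemidef h
  rwa [add_sub_cancel] at this

theorem inv_anti {A B : Matrix n n ℂ} (hA : A.PosDef) (h : (B - A).PosSemidef) :
    (A⁻¹ - B⁻¹).PosSemidef := by
  have hB := posDef_of_le hA h
  have ua := det_unit hA
  have ub := det_unit hB
  have p1 := h.conjTranspose_mul_mul_same B⁻¹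
  have p2 := hA.inv.posSemidef.conjTranspose_mul_mul_same ((B - A) * B⁻¹)
  have e : A⁻¹ - B⁻¹ = B⁻¹ᴴ * (B - A) * B⁻¹ + ((B - A) * B⁻¹)ᴴ * A⁻¹ * ((B - A) * B⁻¹) := by
    rw [conjTranspose_mul, h.1.eq, hB.inv.1.eq]
    simp only [Matrix.mul_sub, Matrix.sub_mul, Matrix.mul_assoc, nonsing_inv_mul _ ub,
      mul_nonsing_inv _ ub, Matrix.mul_one, Matrix.nonsing_inv_mul_cancel_left _ _ ua,
      Matrix.nonsing_inv_mul_cancel_left _ _ ub, mul_nonsing_inv _ ua,
      Matrix.mul_nonsing_inv_cancel_left _ _ ua, Matrix.one_mul]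
    abel
  rw [e]
  exact p1.add p2

theorem posDef_mid {A₀ A₁ : Matrix n n ℂ} (h₀ : A₀.PosDef) (h₁ : A₁.PosDef) :
    ((1 / 2 : ℂ) • (A₀ + A₁)).PosDef := by
  refine (h₀.add h₁).smul ?_
  simp

theorem reflect {A₀ A₁ M : Matrix n n ℂ} (h₀ : A₀.PosDef) (hM : M.IsHermitian)
    (e : A₀ + A₁ = M + M) : (M * A₀⁻¹ * M - A₁).PosSemidef := by
  have ua := det_unit h₀
  have p := h₀.inv.posSemidef.conjTranspose_mul_mul_same (M - A₀)
  have e1 : A₁ = M + M - A₀ := by rw [← e]; abel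
  have e2 : M * A₀⁻¹ * M - A₁ = (M - A₀)ᴴ * A₀⁻¹ * (M - A₀) := by
    rw [conjTranspose_sub, hM.eq, h₀.1.eq, e1]
    simp only [Matrix.mul_sub, Matrix.sub_mul, Matrix.mul_assoc, nonsing_inv_mul _ ua,
      mul_nonsing_inv _ ua, Matrix.mul_one, Matrix.one_mul,
      Matrix.mul_nonsing_inv_cancel_left _ _ ua]
    abel
  rw [e2]; exact p

/-- the ratio `det (A + P B⁻¹ Pᴴ) / det A` -/
noncomputable def FF (P A B : Matrix n n ℂ) : ℝ := rdet (A + P * B⁻¹ * Pᴴ) / rdet A

theorem posDef_FF {P A B : Matrix n n ℂ} (hA : A.PosDef) (hB : B.PosDef) :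
    (A + P * B⁻¹ * Pᴴ).PosDef :=
  hA.add_posSemidef (hB.inv.posSemidef.mul_mul_conjTranspose_same P)

theorem FF_pos {P A B : Matrix n n ℂ} (hA : A.PosDef) (hB : B.PosDef) : 0 < FF P A B :=
  div_pos (rdet_pos (posDef_FF hA hB)) (rdet_pos hA)

theorem FF_symm {P A B : Matrix n n ℂ} (hA : A.PosDef) (hB : B.PosDef) :
    FF P A B = FF Pᴴ B A := by
  have ua := det_unit hA
  have ub := det_unit hB
  have e1 : (A + P * B⁻¹ * Pᴴ).det = A.det * (1 + (A⁻¹ * P) * (B⁻¹ * Pᴴ)).det := by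
    rw [← det_mul, Matrix.mul_add, Matrix.mul_one]
    simp only [Matrix.mul_assoc, Matrix.mul_nonsing_inv_cancel_left _ _ ua]
  have e2 : (B + Pᴴ * A⁻¹ * Pᴴᴴ).det = B.det * (1 + (B⁻¹ * Pᴴ) * (A⁻¹ * P)).det := by
    rw [← det_mul, Matrix.mul_add, Matrix.mul_one, conjTranspose_conjTranspose]
    simp only [Matrix.mul_assoc, Matrix.mul_nonsing_inv_cancel_left _ _ ub]
  rw [det_one_add_mul_comm] at e2
  apply Complex.ofReal_injective
  unfold FF
  push_cast
  rw [rdet_coe (posDef_FF hA hB).1, rdet_coe (posDef_FF hB hA).1, rdet_coe hA.1, rdet_coe hB.1,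
    e1, e2, mul_div_cancel_left₀ _ ua.ne_zero, mul_div_cancel_left₀ _ ub.ne_zero]

theorem FF_anti_right {P A B B' : Matrix n n ℂ} (hA : A.PosDef) (hB : B.PosDef)
    (h : (B' - B).PosSemidef) : FF P A B' ≤ FF P A B := by
  unfold FF
  refine div_le_div_of_nonneg_right ?_ (rdet_pos hA).le
  refine rdet_mono (posDef_FF hA (posDef_of_le hB h)) ?_
  have := (inv_anti hB h).mul_mul_conjTranspose_same P
  have e : A + P * B⁻¹ * Pᴴ - (A + P * B'⁻¹ * Pᴴ) = P * (B⁻¹ - B'⁻¹) * Pᴴ := by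
    rw [Matrix.mul_sub, Matrix.sub_mul]; abel
  rw [e]; exact this

theorem FF_anti_left {P A A' B : Matrix n n ℂ} (hA : A.PosDef) (hB : B.PosDef)
    (h : (A' - A).PosSemidef) : FF P A' B ≤ FF P A B := by
  rw [FF_symm hA hB, FF_symm (posDef_of_le hA h) hB]
  exact FF_anti_right hB hA h

/-- midpoint log-convexity -/
theorem FF_mid {P A₀ A₁ A B₀ B₁ B : Matrix n n ℂ} (a₀ : A₀.PosDef) (a₁ : A₁.PosDef)
    (a : A.PosDef) (b₀ : B₀.PosDef) (b₁ : B₁.PosDef) (b : B.PosDef) (ea : A₀ + A₁ = A + A)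
    (eb : B₀ + B₁ = B + B) : FF P A B ^ 2 ≤ FF P A₀ B₀ * FF P A₁ B₁ := by
  have ua₀ := det_unit a₀
  have ub₀ := det_unit b₀
  have ub := det_unit b
  set α := A * A₀⁻¹ * A with hα
  have hα1 : (α - A₁).PosSemidef := reflect a₀ a.1 ea
  have hαp : α.PosDef := posDef_of_le a₁ hα1
  have hβ1 : (B * B₀⁻¹ * B - B₁).PosSemidef := reflect b₀ b.1 eb
  have hβ2 : (B₁⁻¹ - B⁻¹ * B₀ * B⁻¹).PosSemidef := by
    have := inv_anti b₁ hβ1
    rwa [Matrix.mul_inv_rev, Matrix.mul_inv_rev, nonsing_inv_nonsing_inv _ ub₀,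
      ← Matrix.mul_assoc] at this
  set X := A₀ + P * B₀⁻¹ * Pᴴ with hX
  set Y := A + P * B⁻¹ * Pᴴ with hY
  set Z := α + P * B₁⁻¹ * Pᴴ with hZ
  have pX : X.PosDef := posDef_FF a₀ b₀
  have pY : Y.PosDef := posDef_FF a b
  have pZ : Z.PosDef := posDef_FF hαp b₁
  have uX := det_unit pX
  set T := X⁻¹ * Y with hT
  have hTH : Tᴴ = Y * X⁻¹ := by rw [hT, conjTranspose_mul, pY.1.eq, pX.inv.1.eq]
  have key : (Z - Y * X⁻¹ * Y).PosSemidef := by
    have e0 : Z - Y * X⁻¹ * Y = Z - Y * T - Tᴴ * Y + Tᴴ * X * T := by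
      rw [hTH, hT]
      simp only [Matrix.mul_assoc, Matrix.nonsing_inv_mul_cancel_left _ _ uX]
      abel
    have p1 := a₀.inv.posSemidef.conjTranspose_mul_mul_same (A - A₀ * T)
    have p2 := b₀.inv.posSemidef.conjTranspose_mul_mul_same (B₀ * B⁻¹ * Pᴴ - Pᴴ * T)
    have p3 := hβ2.mul_mul_conjTranspose_same P
    have e1 : Z - Y * T - Tᴴ * Y + Tᴴ * X * T =
        (A - A₀ * T)ᴴ * A₀⁻¹ * (A - A₀ * T) +
        (B₀ * B⁻¹ * Pᴴ - Pᴴ * T)ᴴ * B₀⁻¹ * (B₀ * B⁻¹ * Pᴴ - Pᴴ * T) +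
        P * (B₁⁻¹ - B⁻¹ * B₀ * B⁻¹) * Pᴴ := by
      simp only [conjTranspose_sub, conjTranspose_mul, conjTranspose_conjTranspose, a.1.eq,
        a₀.1.eq, b₀.1.eq, b.inv.1.eq]
      generalize Tᴴ = T'
      clear_value T
      rw [hZ, hY, hX, hα]
      simp only [Matrix.mul_sub, Matrix.sub_mul, Matrix.mul_add, Matrix.add_mul, Matrix.mul_assoc,
        Matrix.nonsing_inv_mul_cancel_left _ _ ua₀, Matrix.mul_nonsing_inv_cancel_left _ _ ua₀,
        Matrix.nonsing_inv_mul_cancel_left _ _ ub₀, Matrix.mul_nonsing_inv_cancel_left _ _ ub₀]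
      abel
    rw [e0, e1]
    exact (p1.add p2).add p3
  have pW : (Y * X⁻¹ * Y).PosDef := by
    have := pX.inv.conjTranspose_mul_mul_same (B := Y)
      (Matrix.mulVec_injective_of_isUnit pY.isUnit)
    rwa [pY.1.eq] at this
  have h1 := rdet_mono pW key
  have inv_det : ∀ {M N : Matrix n n ℂ}, M.PosDef → N.PosDef → (N * M⁻¹ * N).IsHermitian →
      rdet (N * M⁻¹ * N) = rdet N ^ 2 / rdet M := by
    intro M N hM hN hH
    apply Complex.ofReal_injective
    push_cast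
    rw [rdet_coe hH, rdet_coe hM.1, rdet_coe hN.1, det_mul, det_mul, det_nonsing_inv,
      Ring.inverse_eq_inv']
    have := (det_unit hM).ne_zero
    field_simp
  rw [inv_det pX pY pW.1] at h1
  have h2 : FF P α B₁ ≤ FF P A₁ B₁ := FF_anti_left a₁ b₁ hα1
  have h3 : rdet α = rdet A ^ 2 / rdet A₀ := inv_det a₀ a hαp.1
  have h4 : FF P α B₁ = rdet Z / rdet α := rfl
  have rX := rdet_pos pX
  have rA := rdet_pos a
  have rA₀ := rdet_pos a₀
  rw [h4, h3, div_le_iff₀ (by positivity)] at h2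
  have h5 := h1.trans h2
  rw [div_le_iff₀ rX] at h5
  change (rdet Y / rdet A) ^ 2 ≤ rdet X / rdet A₀ * FF P A₁ B₁
  rw [div_pow, div_le_iff₀ (by positivity)]
  refine h5.trans (le_of_eq ?_)
  field_simp

/-- sign flip at one coordinate -/
noncomputable def flip (i : n) : Matrix n n ℂ := diagonal fun j => if j = i then -1 else 1

theorem flip_H (i : n) : (flip i)ᴴ = flip i := by
  unfold flip
  rw [diagonal_conjTranspose]
  congr 1
  ext j
  by_cases h : j = i <;> simp [h]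

theorem flip_sq (i : n) : flip i * flip i = 1 := by
  unfold flip
  rw [diagonal_mul_diagonal, ← diagonal_one]
  congr 1
  ext j
  by_cases h : j = i <;> simp [h]

theorem flip_posDef (i : n) {A : Matrix n n ℂ} (h : A.PosDef) : (flip i * A * flip i).PosDef := by
  have hu : IsUnit (flip i) := IsUnit.of_mul_eq_one _ (flip_sq i)
  have := h.conjTranspose_mul_mul_same (B := flip i) (Matrix.mulVec_injective_of_isUnit hu)
  rwa [flip_H] at this

theorem FF_flip (i : n) (p : n → ℂ) (A B : Matrix n n ℂ) :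
    FF (diagonal p) (flip i * A * flip i) (flip i * B * flip i) = FF (diagonal p) A B := by
  have hU : flip i * (flip i)ᴴ = 1 := by rw [flip_H, flip_sq]
  have hinv : (flip i)⁻¹ = flip i := inv_eq_left_inv (flip_sq i)
  have c : ∀ q : n → ℂ, diagonal q * flip i = flip i * diagonal q := by
    intro q
    unfold flip
    rw [diagonal_mul_diagonal, diagonal_mul_diagonal]
    congr 1; ext j; ring
  have e : flip i * A * flip i + diagonal p * (flip i * B * flip i)⁻¹ * (diagonal p)ᴴ =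
      flip i * (A + diagonal p * B⁻¹ * (diagonal p)ᴴ) * (flip i)ᴴ := by
    rw [Matrix.mul_inv_rev, Matrix.mul_inv_rev, hinv, flip_H, diagonal_conjTranspose,
      Matrix.mul_add, Matrix.add_mul]
    congr 1
    simp only [← Matrix.mul_assoc]
    rw [c p]
    simp only [Matrix.mul_assoc]
    rw [c (star p)]
  unfold FF rdet
  rw [e, det_conj hU]
  congr 2
  have := det_conj hU A
  rwa [flip_H] at this

theorem pinch_step (i : n) {A : Matrix n n ℂ} (h : A.PosDef) :
    ∃ A' : Matrix n n ℂ, A'.PosDef ∧ A + flip i * A * flip i = A' + A' ∧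
      (∀ j, A' j j = A j j) ∧ (∀ j k, A j k = 0 → A' j k = 0) ∧
      (∀ k, k ≠ i → A' i k = 0) := by
  refine ⟨(1 / 2 : ℂ) • (A + flip i * A * flip i), posDef_mid h (flip_posDef i h), ?_, ?_, ?_, ?_⟩
  · rw [← add_smul]; norm_num
  · intro j
    by_cases hj : j = i <;> simp [flip, hj] <;> ring
  · intro j k hjk
    simp [flip, hjk]
  · intro k hk
    simp [flip, hk]

theorem pinch_all (p : n → ℂ) {A B : Matrix n n ℂ} (hA : A.PosDef) (hB : B.PosDef)
    (s : Finset n) : ∃ A' B' : Matrix n n ℂ, A'.PosDef ∧ B'.PosDef ∧ (∀ j, A' j j = A j j) ∧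
      (∀ j, B' j j = B j j) ∧ (∀ j ∈ s, ∀ k, k ≠ j → A' j k = 0) ∧
      (∀ j ∈ s, ∀ k, k ≠ j → B' j k = 0) ∧ FF (diagonal p) A' B' ≤ FF (diagonal p) A B := by
  induction s using Finset.induction_on with
  | empty => exact ⟨A, B, hA, hB, fun _ => rfl, fun _ => rfl, by simp, by simp, le_rfl⟩
  | insert i s _ ih =>
    obtain ⟨A₀, B₀, a₀, b₀, dA, dB, zA, zB, hF⟩ := ih
    obtain ⟨A', a', eA, dA', kA, iA⟩ := pinch_step i a₀
    obtain ⟨B', b', eB, dB', kB, iB⟩ := pinch_step i b₀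
    refine ⟨A', B', a', b', fun j => (dA' j).trans (dA j), fun j => (dB' j).trans (dB j),
      ?_, ?_, ?_⟩
    · intro j hj k hk
      rcases Finset.mem_insert.1 hj with rfl | hj
      · exact iA k hk
      · exact kA j k (zA j hj k hk)
    · intro j hj k hk
      rcases Finset.mem_insert.1 hj with rfl | hj
      · exact iB k hk
      · exact kB j k (zB j hj k hk)
    · have := FF_mid (P := diagonal p) a₀ (flip_posDef i a₀) a' b₀ (flip_posDef i b₀) b' eA eB
      rw [FF_flip, ← sq] at this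
      exact (abs_le_of_sq_le_sq' this (FF_pos a₀ b₀).le).2.trans hF

theorem diag_re_pos {A : Matrix n n ℂ} (h : A.PosDef) (j : n) : 0 < (A j j).re :=
  (Complex.pos_iff.1 h.diag_pos).1

theorem diag_coe {A : Matrix n n ℂ} (h : A.IsHermitian) (j : n) : ((A j j).re : ℂ) = A j j :=
  h.coe_re_apply_self j

/-- the pinching inequality -/
theorem FF_ge (p : n → ℝ) {A B : Matrix n n ℂ} (hA : A.PosDef) (hB : B.PosDef) :
    ∏ j, (1 + p j ^ 2 / ((A j j).re * (B j j).re)) ≤ FF (diagonal fun j => (p j : ℂ)) A B := by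
  obtain ⟨A', B', a', b', dA, dB, zA, zB, hF⟩ :=
    pinch_all (fun j => (p j : ℂ)) hA hB Finset.univ
  refine le_trans (le_of_eq ?_) hF
  have eA : A' = diagonal fun j => (((A j j).re : ℝ) : ℂ) := by
    ext j k
    by_cases h : j = k
    · subst h; rw [diagonal_apply_eq, dA, diag_coe hA.1]
    · rw [diagonal_apply_ne _ h, zA j (Finset.mem_univ _) k (Ne.symm h)]
  have eB : B' = diagonal fun j => (((B j j).re : ℝ) : ℂ) := by
    ext j k
    by_cases h : j = k
    · subst h; rw [diagonal_apply_eq, dB, diag_coe hB.1]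
    · rw [diagonal_apply_ne _ h, zB j (Finset.mem_univ _) k (Ne.symm h)]
  have eI : B'⁻¹ = diagonal fun j => ((((B j j).re)⁻¹ : ℝ) : ℂ) := by
    apply inv_eq_left_inv
    rw [eB, diagonal_mul_diagonal, ← diagonal_one]
    congr 1
    ext j
    rw [← Complex.ofReal_mul, inv_mul_cancel₀ (diag_re_pos hB j).ne']
    simp
  have rd : ∀ q : n → ℝ, rdet (diagonal fun j => (q j : ℂ)) = ∏ j, q j := by
    intro q
    unfold rdet
    rw [det_diagonal, ← Complex.ofReal_prod, Complex.ofReal_re]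
  unfold FF
  rw [eI, eA, diagonal_conjTranspose, diagonal_mul_diagonal, diagonal_mul_diagonal, diagonal_add]
  have e : (fun i => (((A i i).re : ℝ) : ℂ) + (p i : ℂ) * ((((B i i).re)⁻¹ : ℝ) : ℂ) *
      star (fun j => (p j : ℂ)) i) =
      fun i => ((((A i i).re + p i ^ 2 / (B i i).re : ℝ)) : ℂ) := by
    ext i
    simp only [Pi.star_apply, Complex.star_def, Complex.conj_ofReal]
    push_cast
    ring
  rw [e, rd, rd, ← Finset.prod_div_distrib]
  refine Finset.prod_congr rfl fun j _ => ?_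
  have := diag_re_pos hA j
  have := diag_re_pos hB j
  field_simp

end Crest.Agent.R341
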