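import Mathlib

set_option autoImplicit false

namespace Crest.Agent.R341

open Real MeasureTheory Set Filter Topology

/-- kernel whose integral over `(0, ∞)` is `-x log x` -/
noncomputable def kk (x τ : ℝ) : ℝ := log (1 + x / τ) - x * log (1 + 1 / τ)

theorem log_conc {y θ : ℝ} (hy : 0 ≤ y) (h0 : 0 ≤ θ) (h1 : θ ≤ 1) :
    θ * log (1 + y) ≤ log (1 + θ * y) := by
  have h := strictConcaveOn_log_Ioi.concaveOn.2 (show (1 : ℝ) ∈ Ioi 0 by simp)
    (show (1 + y) ∈ Ioi (0 : ℝ) by simp only [mem_Ioi]; linarith) (show 0 ≤ 1 - θ by linarith) h0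
    (by ring)
  simp only [smul_eq_mul, log_one, mul_zero, zero_add] at h
  have e : (1 - θ) * 1 + θ * (1 + y) = 1 + θ * y := by ring
  rwa [e] at h

theorem kk_nonneg {x τ : ℝ} (h0 : 0 ≤ x) (h1 : x ≤ 1) (hτ : 0 < τ) : 0 ≤ kk x τ := by
  have := log_conc (y := 1 / τ) (by positivity) h0 h1
  rw [mul_one_div] at this
  unfold kk; linarith

theorem kk_nonpos {x τ : ℝ} (h1 : 1 ≤ x) (hτ : 0 < τ) : kk x τ ≤ 0 := by
  have hx : 0 < x := by linarith
  have := log_conc (y := x / τ) (θ := 1 / x) (by positivity) (by positivity)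
    (by rw [div_le_one hx]; exact h1)
  have e : 1 / x * (x / τ) = 1 / τ := by field_simp
  rw [e] at this
  have h2 := mul_le_mul_of_nonneg_left this hx.le
  have e2 : x * (1 / x * log (1 + x / τ)) = log (1 + x / τ) := by field_simp
  rw [e2] at h2
  unfold kk; linarith

noncomputable def kkPrim (x τ : ℝ) : ℝ :=
  (τ + x) * log (τ + x) - τ * log τ - x * ((τ + 1) * log (τ + 1) - τ * log τ)

theorem log_one_add_div {x τ : ℝ} (h0 : 0 ≤ x) (hτ : 0 < τ) :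
    log (1 + x / τ) = log (τ + x) - log τ := by
  rw [← log_div (by positivity) hτ.ne']
  congr 1; field_simp

theorem kkPrim_deriv {x τ : ℝ} (h0 : 0 ≤ x) (hτ : 0 < τ) : HasDerivAt (kkPrim x) (kk x τ) τ := by
  have h1 : HasDerivAt (fun t : ℝ => (t + x) * log (t + x)) (log (τ + x) + 1) τ := by
    have := (hasDerivAt_mul_log (x := τ + x) (by positivity)).comp τ
      ((hasDerivAt_id τ).add_const x)
    simpa [Function.comp_def] using this
  have h2 : HasDerivAt (fun t : ℝ => (t + 1) * log (t + 1)) (log (τ + 1) + 1) τ := by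
    have := (hasDerivAt_mul_log (x := τ + 1) (by positivity)).comp τ
      ((hasDerivAt_id τ).add_const 1)
    simpa [Function.comp_def] using this
  have h3 := hasDerivAt_mul_log (x := τ) hτ.ne'
  have h := (h1.sub h3).sub ((h2.sub h3).const_mul x)
  have e : kk x τ = log (τ + x) + 1 - (log τ + 1) - x * (log (τ + 1) + 1 - (log τ + 1)) := by
    unfold kk
    rw [log_one_add_div h0 hτ, log_one_add_div zero_le_one hτ]
    ring
  rw [e]
  exact h

theorem kkPrim_cont (x : ℝ) : Continuous (kkPrim x) := by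
  unfold kkPrim
  have h1 : Continuous (fun t : ℝ => (t + x) * log (t + x)) :=
    continuous_mul_log.comp (continuous_id.add continuous_const)
  have h2 : Continuous (fun t : ℝ => (t + 1) * log (t + 1)) :=
    continuous_mul_log.comp (continuous_id.add continuous_const)
  exact (h1.sub continuous_mul_log).sub (continuous_const.mul (h2.sub continuous_mul_log))

theorem tendsto_aux (x : ℝ) : Tendsto (fun τ : ℝ => (τ + x) * log (1 + x / τ)) atTop (𝓝 x) := by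
  have h1 := tendsto_mul_log_one_add_div_atTop x
  have h2 : Tendsto (fun τ : ℝ => log (1 + x / τ)) atTop (𝓝 0) := by
    have h3 : Tendsto (fun τ : ℝ => 1 + x / τ) atTop (𝓝 (1 + 0)) :=
      tendsto_const_nhds.add (tendsto_const_nhds.div_atTop tendsto_id)
    rw [add_zero] at h3
    have := (continuousAt_log one_ne_zero).tendsto.comp h3
    simpa [Function.comp_def] using this
  have := h1.add (h2.const_mul x)
  simp only [mul_zero, add_zero] at this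
  refine this.congr fun τ => by ring

theorem kkPrim_tendsto {x : ℝ} (h0 : 0 ≤ x) : Tendsto (kkPrim x) atTop (𝓝 0) := by
  have h := (tendsto_aux x).sub ((tendsto_aux 1).const_mul x)
  simp only [mul_one, sub_self] at h
  refine h.congr' ?_
  filter_upwards [eventually_gt_atTop 0] with τ hτ
  unfold kkPrim
  rw [log_one_add_div h0 hτ, log_one_add_div zero_le_one hτ]
  ring

theorem kk_integrable {x : ℝ} (h0 : 0 ≤ x) : IntegrableOn (kk x) (Ioi 0) := by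
  rcases le_total x 1 with h | h
  · exact integrableOn_Ioi_deriv_of_nonneg (kkPrim_cont x).continuousWithinAt
      (fun τ hτ => kkPrim_deriv h0 hτ) (fun τ hτ => kk_nonneg h0 h hτ) (kkPrim_tendsto h0)
  · exact integrableOn_Ioi_deriv_of_nonpos (kkPrim_cont x).continuousWithinAt
      (fun τ hτ => kkPrim_deriv h0 hτ) (fun τ hτ => kk_nonpos h hτ) (kkPrim_tendsto h0)

theorem kk_integral {x : ℝ} (h0 : 0 ≤ x) : ∫ τ in Ioi 0, kk x τ = negMulLog x := by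
  rw [integral_Ioi_of_hasDerivAt_of_tendsto (kkPrim_cont x).continuousWithinAt
      (fun τ hτ => kkPrim_deriv h0 hτ) (kk_integrable h0) (kkPrim_tendsto h0)]
  simp [kkPrim, negMulLog]

/-! ### layer cake comparison -/

/-- a subset of `(0, ∞)` closed under going down -/
def Down (S : Set ℝ) : Prop := (∀ τ ∈ S, 0 < τ) ∧ ∀ τ ∈ S, ∀ σ, 0 < σ → σ ≤ τ → σ ∈ S

theorem Down.le_vol {S : Set ℝ} (h : Down S) {r : ℝ} (hr : r ∈ S) :
    ENNReal.ofReal r ≤ volume S := by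
  have : Ioc 0 r ⊆ S := fun σ hσ => h.2 r hr σ hσ.1 hσ.2
  have h2 := measure_mono (μ := volume) this
  simpa using h2

theorem Down.vol_le {S : Set ℝ} (h : Down S) {r : ℝ} (hr : r ∉ S) (hr0 : 0 < r) :
    volume S ≤ ENNReal.ofReal r := by
  have : S ⊆ Ioc 0 r := fun σ hσ => ⟨h.1 σ hσ, by
    by_contra hc
    exact hr (h.2 σ hσ r hr0 (le_of_lt (not_le.mp hc)))⟩
  have h2 := measure_mono (μ := volume) this
  simpa using h2

theorem vol_super {S₁ S₂ S : Set ℝ} (h₁ : Down S₁) (h₂ : Down S₂) (h : Down S)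
    (i₁ : S₁ ⊆ S) (i₂ : S₂ ⊆ S) (hs : ∀ a ∈ S₁, ∀ b ∈ S₂, a + b ∈ S) :
    volume S₁ + volume S₂ ≤ volume S := by
  by_cases hS : volume S = ⊤
  · rw [hS]; exact le_top
  have f₁ : volume S₁ ≠ ⊤ := ne_top_of_le_ne_top hS (measure_mono i₁)
  have f₂ : volume S₂ ≠ ⊤ := ne_top_of_le_ne_top hS (measure_mono i₂)
  by_cases z₁ : volume S₁ = 0
  · rw [z₁, zero_add]; exact measure_mono i₂
  by_cases z₂ : volume S₂ = 0
  · rw [z₂, add_zero]; exact measure_mono i₁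
  have p₁ := ENNReal.toReal_pos z₁ f₁
  have p₂ := ENNReal.toReal_pos z₂ f₂
  rw [← ENNReal.toReal_le_toReal (ENNReal.add_ne_top.2 ⟨f₁, f₂⟩) hS, ENNReal.toReal_add f₁ f₂]
  set r₁ := (volume S₁).toReal
  set r₂ := (volume S₂).toReal
  by_contra hc
  push Not at hc
  set r := (volume S).toReal
  have hr : 0 ≤ r := ENNReal.toReal_nonneg
  -- scale down
  set θ : ℝ := (r + (r₁ + r₂)) / (2 * (r₁ + r₂)) with hθ
  have θ0 : 0 < θ := by positivity
  have θ1 : θ < 1 := by rw [hθ, div_lt_one (by positivity)]; linarith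
  have mem : ∀ {T : Set ℝ}, Down T → volume T ≠ ⊤ → 0 < (volume T).toReal →
      θ * (volume T).toReal ∈ T := by
    intro T hT hf hp
    by_contra hn
    have := hT.vol_le hn (by positivity)
    rw [← ENNReal.toReal_le_toReal hf ENNReal.ofReal_ne_top,
      ENNReal.toReal_ofReal (by positivity)] at this
    nlinarith
  have hm := hs _ (mem h₁ f₁ p₁) _ (mem h₂ f₂ p₂)
  have := h.le_vol hm
  rw [← ENNReal.toReal_le_toReal ENNReal.ofReal_ne_top hS,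
    ENNReal.toReal_ofReal (by positivity)] at this
  have e : θ * r₁ + θ * r₂ = (r + (r₁ + r₂)) / 2 := by rw [hθ]; field_simp
  change θ * r₁ + θ * r₂ ≤ r at this
  rw [e] at this
  linarith

theorem vol_sub {S₁ S₂ S : Set ℝ} (h₁ : Down S₁) (h₂ : Down S₂) (h : Down S)
    (hs : ∀ a b, 0 < a → 0 < b → a ∉ S₁ → b ∉ S₂ → a + b ∉ S) :
    volume S ≤ volume S₁ + volume S₂ := by
  by_cases f₁ : volume S₁ = ⊤
  · rw [f₁]; simp
  by_cases f₂ : volume S₂ = ⊤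
  · rw [f₂]; simp
  refine ENNReal.le_of_forall_pos_le_add fun ε hε _ => ?_
  have hε' : (0 : ℝ) < ε := hε
  have nmem : ∀ {T : Set ℝ}, Down T → volume T ≠ ⊤ → (volume T).toReal + ε / 2 ∉ T := by
    intro T hT hf hm
    have := hT.le_vol hm
    have hn : 0 ≤ (volume T).toReal := ENNReal.toReal_nonneg
    rw [← ENNReal.toReal_le_toReal ENNReal.ofReal_ne_top hf,
      ENNReal.toReal_ofReal (by positivity)] at this
    linarith
  have n₁ : 0 ≤ (volume S₁).toReal := ENNReal.toReal_nonneg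
  have n₂ : 0 ≤ (volume S₂).toReal := ENNReal.toReal_nonneg
  have := h.vol_le (hs _ _ (by positivity) (by positivity) (nmem h₁ f₁) (nmem h₂ f₂))
    (by positivity)
  refine this.trans (le_of_eq ?_)
  have e : (volume S₁).toReal + ε / 2 + ((volume S₂).toReal + ε / 2) =
      (volume S₁).toReal + (volume S₂).toReal + ε := by ring
  rw [e, ENNReal.ofReal_add (by positivity) hε'.le, ENNReal.ofReal_add n₁ n₂,
    ENNReal.ofReal_toReal f₁, ENNReal.ofReal_toReal f₂, ENNReal.ofReal_coe_nnreal]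

/-- superlevel set inside `(0, ∞)` -/
def lev (f : ℝ → ℝ) (t : ℝ) : Set ℝ := {τ | 0 < τ ∧ t < f τ}

theorem layer {f : ℝ → ℝ} (hi : IntegrableOn f (Ioi 0)) (hn : ∀ τ, 0 < τ → 0 ≤ f τ) :
    ENNReal.ofReal (∫ τ in Ioi 0, f τ) = ∫⁻ t in Ioi 0, volume (lev f t) := by
  have hn' : 0 ≤ᵐ[volume.restrict (Ioi 0)] f :=
    (ae_restrict_iff' measurableSet_Ioi).2 (Eventually.of_forall fun τ hτ => hn τ hτ)
  rw [ofReal_integral_eq_lintegral_ofReal hi hn',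
    lintegral_eq_lintegral_meas_lt _ hn' hi.aemeasurable]
  refine lintegral_congr fun t => ?_
  rw [Measure.restrict_apply' measurableSet_Ioi]
  congr 1
  ext τ; simp [lev, and_comm]

theorem lev_meas (f : ℝ → ℝ) : Measurable fun t => volume (lev f t) := by
  refine Antitone.measurable fun s t hst => measure_mono fun τ hτ => ⟨hτ.1, lt_of_le_of_lt hst hτ.2⟩

theorem integral_super {f₁ f₂ f : ℝ → ℝ} (i₁ : IntegrableOn f₁ (Ioi 0))
    (i₂ : IntegrableOn f₂ (Ioi 0)) (i : IntegrableOn f (Ioi 0))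
    (n₁ : ∀ τ, 0 < τ → 0 ≤ f₁ τ) (n₂ : ∀ τ, 0 < τ → 0 ≤ f₂ τ) (n : ∀ τ, 0 < τ → 0 ≤ f τ)
    (h : ∀ t, 0 < t → volume (lev f₁ t) + volume (lev f₂ t) ≤ volume (lev f t)) :
    (∫ τ in Ioi 0, f₁ τ) + (∫ τ in Ioi 0, f₂ τ) ≤ ∫ τ in Ioi 0, f τ := by
  have p : ∀ {g : ℝ → ℝ}, (∀ τ, 0 < τ → 0 ≤ g τ) → 0 ≤ ∫ τ in Ioi 0, g τ := fun hg =>
    setIntegral_nonneg measurableSet_Ioi hg
  rw [← ENNReal.ofReal_le_ofReal_iff (p n), ENNReal.ofReal_add (p n₁) (p n₂), layer i₁ n₁,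
    layer i₂ n₂, layer i n, ← lintegral_add_left (lev_meas f₁)]
  exact setLIntegral_mono' measurableSet_Ioi h

theorem integral_sub' {f₁ f₂ f : ℝ → ℝ} (i₁ : IntegrableOn f₁ (Ioi 0))
    (i₂ : IntegrableOn f₂ (Ioi 0)) (i : IntegrableOn f (Ioi 0))
    (n₁ : ∀ τ, 0 < τ → 0 ≤ f₁ τ) (n₂ : ∀ τ, 0 < τ → 0 ≤ f₂ τ) (n : ∀ τ, 0 < τ → 0 ≤ f τ)
    (h : ∀ t, 0 < t → volume (lev f t) ≤ volume (lev f₁ t) + volume (lev f₂ t)) :
    ∫ τ in Ioi 0, f τ ≤ (∫ τ in Ioi 0, f₁ τ) + (∫ τ in Ioi 0, f₂ τ) := by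
  have p : ∀ {g : ℝ → ℝ}, (∀ τ, 0 < τ → 0 ≤ g τ) → 0 ≤ ∫ τ in Ioi 0, g τ := fun hg =>
    setIntegral_nonneg measurableSet_Ioi hg
  rw [← ENNReal.ofReal_le_ofReal_iff (add_nonneg (p n₁) (p n₂)),
    ENNReal.ofReal_add (p n₁) (p n₂), layer i₁ n₁,
    layer i₂ n₂, layer i n, ← lintegral_add_left (lev_meas f₁)]
  exact setLIntegral_mono' measurableSet_Ioi h

/-! ### entropy of a `2 × 2` matrix with trace `s` and determinant `D` -/

noncomputable def mup (s D : ℝ) : ℝ := (s + √(s ^ 2 - 4 * D)) / 2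
noncomputable def mum (s D : ℝ) : ℝ := (s - √(s ^ 2 - 4 * D)) / 2
noncomputable def S2 (s D : ℝ) : ℝ := negMulLog (mup s D) + negMulLog (mum s D)

theorem mup_add_mum (s D : ℝ) : mup s D + mum s D = s := by unfold mup mum; ring

theorem mup_mul_mum {s D : ℝ} (h : 4 * D ≤ s ^ 2) : mup s D * mum s D = D := by
  unfold mup mum
  have := Real.mul_self_sqrt (show 0 ≤ s ^ 2 - 4 * D by linarith)
  nlinarith

theorem mup_nonneg {s D : ℝ} (hs : 0 ≤ s) : 0 ≤ mup s D := by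
  unfold mup; positivity

theorem mum_nonneg {s D : ℝ} (hs : 0 ≤ s) (hD : 0 ≤ D) : 0 ≤ mum s D := by
  unfold mum
  have : √(s ^ 2 - 4 * D) ≤ s := by
    rw [Real.sqrt_le_left hs]; linarith
  linarith

theorem S2_of_roots {x y : ℝ} : S2 (x + y) (x * y) = negMulLog x + negMulLog y := by
  have e : (x + y) ^ 2 - 4 * (x * y) = (x - y) ^ 2 := by ring
  unfold S2 mup mum
  rw [e, Real.sqrt_sq_eq_abs]
  rcases le_total y x with h | h
  · rw [abs_of_nonneg (by linarith)]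
    congr 2 <;> ring
  · rw [abs_of_nonpos (by linarith), add_comm]
    congr 2 <;> ring

theorem kk_mu {s D τ : ℝ} (hs : 0 ≤ s) (hD : 0 ≤ D) (h : 4 * D ≤ s ^ 2) (hτ : 0 < τ) :
    kk (mup s D) τ + kk (mum s D) τ =
      log (1 + s / τ + D / τ ^ 2) - s * log (1 + 1 / τ) := by
  have h1 := mup_nonneg (D := D) hs
  have h2 := mum_nonneg hs hD
  unfold kk
  have e : 1 + s / τ + D / τ ^ 2 = (1 + mup s D / τ) * (1 + mum s D / τ) := by
    conv_lhs => rw [← mup_mul_mum h, ← mup_add_mum s D]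
    rw [mup_add_mum]
    have := mup_add_mum s D
    field_simp
    nlinarith
  rw [e, log_mul (by positivity) (by positivity)]
  have := mup_add_mum s D
  linear_combination (-log (1 + 1 / τ)) * this

/-- normalised entropy as a homogeneous function of trace and square root of determinant -/
noncomputable def Gt (s δ : ℝ) : ℝ := S2 s (δ ^ 2) - negMulLog s

noncomputable def gI (s δ τ : ℝ) : ℝ := log (1 + δ ^ 2 / (τ * (τ + s)))

theorem gI_eq {s δ τ : ℝ} (hs : 0 ≤ s) (h : 4 * δ ^ 2 ≤ s ^ 2) (hτ : 0 < τ) :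
    gI s δ τ = kk (mup s (δ ^ 2)) τ + kk (mum s (δ ^ 2)) τ - kk s τ := by
  rw [kk_mu hs (sq_nonneg δ) h hτ]
  unfold gI kk
  have e : 1 + s / τ + δ ^ 2 / τ ^ 2 = (1 + δ ^ 2 / (τ * (τ + s))) * (1 + s / τ) := by
    field_simp
  rw [e, log_mul (by positivity) (by positivity)]
  ring

theorem gI_int {s δ : ℝ} (hs : 0 ≤ s) (h : 4 * δ ^ 2 ≤ s ^ 2) :
    IntegrableOn (gI s δ) (Ioi 0) ∧ ∫ τ in Ioi 0, gI s δ τ = Gt s δ := by
  have h1 := mup_nonneg (D := δ ^ 2) hs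
  have h2 := mum_nonneg hs (sq_nonneg δ)
  have i2 : IntegrableOn (fun τ => kk (mup s (δ ^ 2)) τ + kk (mum s (δ ^ 2)) τ) (Ioi 0) :=
    (kk_integrable h1).add (kk_integrable h2)
  have hi := i2.sub (kk_integrable hs)
  have he : EqOn (gI s δ) (fun τ => kk (mup s (δ ^ 2)) τ + kk (mum s (δ ^ 2)) τ - kk s τ) (Ioi 0) :=
    fun τ hτ => gI_eq hs h hτ
  refine ⟨(integrableOn_congr_fun he measurableSet_Ioi).2 hi, ?_⟩
  rw [setIntegral_congr_fun measurableSet_Ioi he,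
    integral_sub i2 (kk_integrable hs),
    integral_add (kk_integrable h1) (kk_integrable h2), kk_integral h1, kk_integral h2,
    kk_integral hs]
  rfl

theorem gI_nonneg {s δ τ : ℝ} (hs : 0 ≤ s) (hτ : 0 < τ) : 0 ≤ gI s δ τ := by
  unfold gI
  apply log_nonneg
  have : 0 ≤ δ ^ 2 / (τ * (τ + s)) := by positivity
  linarith

theorem mem_lev_gI {s δ t τ : ℝ} (hs : 0 ≤ s) :
    τ ∈ lev (gI s δ) t ↔ 0 < τ ∧ (exp t - 1) * (τ * (τ + s)) < δ ^ 2 := by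
  unfold lev gI
  simp only [mem_ofPred_eq]
  refine and_congr_right fun hτ => ?_
  rw [lt_log_iff_exp_lt (by positivity), ← sub_lt_iff_lt_add', lt_div_iff₀ (by positivity)]

theorem down_gI {s δ t : ℝ} (hs : 0 ≤ s) (ht : 0 < t) : Down (lev (gI s δ) t) := by
  refine ⟨fun τ hτ => hτ.1, fun τ hτ σ h0 hσ => ?_⟩
  rw [mem_lev_gI hs] at hτ ⊢
  refine ⟨h0, lt_of_le_of_lt ?_ hτ.2⟩
  have : 0 ≤ exp t - 1 := by have := add_one_le_exp t; linarith
  have := hτ.1.le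
  gcongr

theorem Gt_subadd {s₁ δ₁ s₂ δ₂ : ℝ} (h₁ : 0 ≤ s₁) (h₂ : 0 ≤ s₂) (d₁ : 4 * δ₁ ^ 2 ≤ s₁ ^ 2)
    (d₂ : 4 * δ₂ ^ 2 ≤ s₂ ^ 2) (d : 4 * (δ₁ + δ₂) ^ 2 ≤ (s₁ + s₂) ^ 2) :
    Gt (s₁ + s₂) (δ₁ + δ₂) ≤ Gt s₁ δ₁ + Gt s₂ δ₂ := by
  have hs := add_nonneg h₁ h₂
  rw [← (gI_int h₁ d₁).2, ← (gI_int h₂ d₂).2, ← (gI_int hs d).2]
  refine integral_sub' (gI_int h₁ d₁).1 (gI_int h₂ d₂).1 (gI_int hs d).1
    (fun τ hτ => gI_nonneg h₁ hτ) (fun τ hτ => gI_nonneg h₂ hτ) (fun τ hτ => gI_nonneg hs hτ)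
    fun t ht => vol_sub (down_gI h₁ ht) (down_gI h₂ ht) (down_gI hs ht) ?_
  intro a b ha hb na nb
  rw [mem_lev_gI h₁] at na
  rw [mem_lev_gI h₂] at nb
  rw [mem_lev_gI hs]
  simp only [ha, hb, true_and, not_lt] at na nb
  rw [not_and, not_lt]
  intro _
  set c := exp t - 1
  have hc : 0 ≤ c := by have := add_one_le_exp t; simp only [c]; linarith
  have key : 2 * (δ₁ * δ₂) ≤ c * (a * (b + s₂)) + c * (b * (a + s₁)) := by
    have p1 : 0 ≤ c * (a * (b + s₂)) := by positivity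
    have p2 : 0 ≤ c * (b * (a + s₁)) := by positivity
    have hp : (δ₁ * δ₂) ^ 2 ≤ (c * (a * (b + s₂))) * (c * (b * (a + s₁))) := by
      calc (δ₁ * δ₂) ^ 2 = δ₁ ^ 2 * δ₂ ^ 2 := by ring
        _ ≤ (c * (a * (a + s₁))) * (c * (b * (b + s₂))) :=
          mul_le_mul na nb (sq_nonneg _) (by positivity)
        _ = _ := by ring
    refine abs_le_of_sq_le_sq' ?_ (by positivity) |>.2
    nlinarith [sq_nonneg (c * (a * (b + s₂)) - c * (b * (a + s₁)))]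
  nlinarith

theorem Gt_smul {c s δ : ℝ} (hc : 0 ≤ c) : Gt (c * s) (c * δ) = c * Gt s δ := by
  have e : √((c * s) ^ 2 - 4 * (c * δ) ^ 2) = c * √(s ^ 2 - 4 * δ ^ 2) := by
    rw [show (c * s) ^ 2 - 4 * (c * δ) ^ 2 = c ^ 2 * (s ^ 2 - 4 * δ ^ 2) by ring,
      Real.sqrt_mul (sq_nonneg c), Real.sqrt_sq hc]
  have e1 : mup (c * s) ((c * δ) ^ 2) = c * mup s (δ ^ 2) := by unfold mup; rw [e]; ring
  have e2 : mum (c * s) ((c * δ) ^ 2) = c * mum s (δ ^ 2) := by unfold mum; rw [e]; ring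
  unfold Gt S2
  rw [e1, e2, negMulLog_mul, negMulLog_mul, negMulLog_mul]
  have := mup_add_mum s (δ ^ 2)
  linear_combination (negMulLog c) * this

theorem Gt_zero : Gt 0 0 = 0 := by simpa using Gt_smul (c := 0) (s := 0) (δ := 0) le_rfl

theorem dom_add {s₁ δ₁ s₂ δ₂ : ℝ} (h₁ : 0 ≤ s₁) (h₂ : 0 ≤ s₂) (d₁ : 4 * δ₁ ^ 2 ≤ s₁ ^ 2)
    (d₂ : 4 * δ₂ ^ 2 ≤ s₂ ^ 2) : 4 * (δ₁ + δ₂) ^ 2 ≤ (s₁ + s₂) ^ 2 := by
  have a₁ := abs_le_of_sq_le_sq' (a := 2 * δ₁) (b := s₁) (by linarith) h₁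
  have a₂ := abs_le_of_sq_le_sq' (a := 2 * δ₂) (b := s₂) (by linarith) h₂
  have : (2 * (δ₁ + δ₂)) ^ 2 ≤ (s₁ + s₂) ^ 2 :=
    sq_le_sq' (by linarith [a₁.1, a₂.1]) (by linarith [a₁.2, a₂.2])
  linarith

theorem Gt_sum {ι : Type*} (T : Finset ι) (s δ : ι → ℝ) (hs : ∀ i ∈ T, 0 ≤ s i)
    (hd : ∀ i ∈ T, 4 * δ i ^ 2 ≤ s i ^ 2) :
    4 * (∑ i ∈ T, δ i) ^ 2 ≤ (∑ i ∈ T, s i) ^ 2 ∧
      Gt (∑ i ∈ T, s i) (∑ i ∈ T, δ i) ≤ ∑ i ∈ T, Gt (s i) (δ i) := by
  classical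
  induction T using Finset.induction_on with
  | empty => simp [Gt_zero]
  | insert a T ha ih =>
    have ih' := ih (fun i hi => hs i (Finset.mem_insert_of_mem hi))
      (fun i hi => hd i (Finset.mem_insert_of_mem hi))
    have hs' : 0 ≤ ∑ i ∈ T, s i :=
      Finset.sum_nonneg fun i hi => hs i (Finset.mem_insert_of_mem hi)
    have sa := hs a (Finset.mem_insert_self a T)
    have da := hd a (Finset.mem_insert_self a T)
    rw [Finset.sum_insert ha, Finset.sum_insert ha, Finset.sum_insert ha]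
    have hdom := dom_add sa hs' da ih'.1
    exact ⟨hdom, (Gt_subadd sa hs' da ih'.1 hdom).trans (by linarith [ih'.2])⟩

/-! ### the three-variable function -/

noncomputable def phi (w a b : ℝ) : ℝ :=
  negMulLog w + negMulLog a + negMulLog b - S2 (w + a + b) (a * b)

noncomputable def fI (w a b τ : ℝ) : ℝ :=
  log (1 + w / τ) - log (1 + τ * w / ((τ + a) * (τ + b)))

theorem dom3 {w a b : ℝ} (hw : 0 ≤ w) (ha : 0 ≤ a) (hb : 0 ≤ b) :
    4 * (a * b) ≤ (w + a + b) ^ 2 := by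
  nlinarith [sq_nonneg (a - b), mul_nonneg hw ha, mul_nonneg hw hb, sq_nonneg w]

theorem fI_eq {w a b τ : ℝ} (hw : 0 ≤ w) (ha : 0 ≤ a) (hb : 0 ≤ b) (hτ : 0 < τ) :
    fI w a b τ = kk w τ + kk a τ + kk b τ -
      (kk (mup (w + a + b) (a * b)) τ + kk (mum (w + a + b) (a * b)) τ) := by
  rw [kk_mu (by positivity) (by positivity) (dom3 hw ha hb) hτ]
  unfold fI kk
  have e : 1 + (w + a + b) / τ + a * b / τ ^ 2 =
      (1 + τ * w / ((τ + a) * (τ + b))) * ((1 + a / τ) * (1 + b / τ)) := by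
    field_simp
    ring
  rw [e, log_mul (by positivity) (by positivity), log_mul (by positivity) (by positivity)]
  ring

theorem fI_int {w a b : ℝ} (hw : 0 ≤ w) (ha : 0 ≤ a) (hb : 0 ≤ b) :
    IntegrableOn (fI w a b) (Ioi 0) ∧ ∫ τ in Ioi 0, fI w a b τ = phi w a b := by
  have hs : 0 ≤ w + a + b := by positivity
  have h1 := mup_nonneg (D := a * b) hs
  have h2 := mum_nonneg hs (mul_nonneg ha hb)
  have i0 : IntegrableOn (fun τ => kk w τ + kk a τ) (Ioi 0) :=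
    (kk_integrable hw).add (kk_integrable ha)
  have i1 : IntegrableOn (fun τ => kk w τ + kk a τ + kk b τ) (Ioi 0) := i0.add (kk_integrable hb)
  have i2 : IntegrableOn
      (fun τ => kk (mup (w + a + b) (a * b)) τ + kk (mum (w + a + b) (a * b)) τ) (Ioi 0) :=
    (kk_integrable h1).add (kk_integrable h2)
  have he : EqOn (fI w a b) (fun τ => kk w τ + kk a τ + kk b τ -
      (kk (mup (w + a + b) (a * b)) τ + kk (mum (w + a + b) (a * b)) τ)) (Ioi 0) :=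
    fun τ hτ => fI_eq hw ha hb hτ
  refine ⟨(integrableOn_congr_fun he measurableSet_Ioi).2 (i1.sub i2), ?_⟩
  rw [setIntegral_congr_fun measurableSet_Ioi he, integral_sub i1 i2,
    integral_add i0 (kk_integrable hb),
    integral_add (kk_integrable hw) (kk_integrable ha),
    integral_add (kk_integrable h1) (kk_integrable h2), kk_integral h1, kk_integral h2,
    kk_integral hw, kk_integral ha, kk_integral hb]
  rfl

theorem fI_nonneg {w a b τ : ℝ} (hw : 0 ≤ w) (ha : 0 ≤ a) (hb : 0 ≤ b) (hτ : 0 < τ) :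
    0 ≤ fI w a b τ := by
  unfold fI
  rw [sub_nonneg]
  apply log_le_log (by positivity)
  have : τ * w / ((τ + a) * (τ + b)) ≤ w / τ := by
    rw [div_le_div_iff₀ (by positivity) hτ]
    have : τ * τ ≤ (τ + a) * (τ + b) := by gcongr <;> linarith
    nlinarith
  linarith

theorem mem_lev_fI {w a b t τ : ℝ} (hw : 0 ≤ w) (ha : 0 ≤ a) (hb : 0 ≤ b) :
    τ ∈ lev (fI w a b) t ↔ 0 < τ ∧
      (exp t - 1) * τ + exp t * w * (τ / (τ + a) * (τ / (τ + b))) < w := by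
  unfold lev fI
  simp only [mem_ofPred_eq]
  refine and_congr_right fun hτ => ?_
  rw [← log_div (by positivity) (by positivity), lt_log_iff_exp_lt (by positivity),
    lt_div_iff₀ (by positivity)]
  have e1 : exp t * (1 + τ * w / ((τ + a) * (τ + b))) =
      ((exp t - 1) * τ + exp t * w * (τ / (τ + a) * (τ / (τ + b))) + τ) / τ := by
    field_simp
    ring
  have e2 : 1 + w / τ = (w + τ) / τ := by field_simp; ring
  rw [e1, e2, div_lt_div_iff_of_pos_right hτ, add_lt_add_iff_right]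

theorem frac_mono {σ τ a a' : ℝ} (h0 : 0 < σ) (h : σ ≤ τ) (ha : 0 ≤ a) (haa : a ≤ a') :
    σ / (σ + a') ≤ τ / (τ + a) := by
  rw [div_le_div_iff₀ (by linarith) (by linarith)]
  nlinarith

theorem down_fI {w a b t : ℝ} (hw : 0 ≤ w) (ha : 0 ≤ a) (hb : 0 ≤ b) (ht : 0 < t) :
    Down (lev (fI w a b) t) := by
  refine ⟨fun τ hτ => hτ.1, fun τ hτ σ h0 hσ => ?_⟩
  rw [mem_lev_fI hw ha hb] at hτ ⊢
  refine ⟨h0, lt_of_le_of_lt ?_ hτ.2⟩
  have : 0 ≤ exp t - 1 := by have := add_one_le_exp t; linarith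
  have h1 := frac_mono h0 hσ ha le_rfl
  have h2 := frac_mono h0 hσ hb le_rfl
  have := hτ.1
  gcongr

theorem lev_fI_iff {w a b t τ : ℝ} (hw : 0 ≤ w) (ha : 0 ≤ a) (hb : 0 ≤ b) (ht : 0 < t) :
    τ ∈ lev (fI w a b) t ↔ 0 < τ ∧ 0 < w ∧
      (exp t - 1) * (τ ^ 2 / w) + exp t * (τ ^ 3 / ((τ + a) * (τ + b))) < τ := by
  rw [mem_lev_fI hw ha hb]
  refine and_congr_right fun hτ => ?_
  have hc : 0 ≤ exp t - 1 := by have := add_one_le_exp t; linarith
  have key : 0 < w → ((exp t - 1) * τ + exp t * w * (τ / (τ + a) * (τ / (τ + b))) < w ↔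
      (exp t - 1) * (τ ^ 2 / w) + exp t * (τ ^ 3 / ((τ + a) * (τ + b))) < τ) := by
    intro hw'
    have e : (exp t - 1) * (τ ^ 2 / w) + exp t * (τ ^ 3 / ((τ + a) * (τ + b))) =
        ((exp t - 1) * τ + exp t * w * (τ / (τ + a) * (τ / (τ + b)))) * (τ / w) := by
      field_simp
    have e' : τ = w * (τ / w) := by field_simp
    rw [e]
    conv_rhs => rhs; rw [e']
    rw [mul_lt_mul_iff_left₀ (by positivity)]
  constructor
  · intro h
    have hw' : 0 < w := lt_of_le_of_lt (by positivity) h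
    exact ⟨hw', (key hw').1 h⟩
  · rintro ⟨hw', h⟩
    exact (key hw').2 h

theorem amgm3 {α β : ℝ} (hα : 0 < α) (hβ : 0 < β) : 3 * (α * β) ≤ (α * β) ^ 2 + α + β := by
  obtain ⟨x, hx, rfl⟩ : ∃ x, 0 < x ∧ α = x ^ 2 := ⟨√α, by positivity, by rw [Real.sq_sqrt hα.le]⟩
  obtain ⟨y, hy, rfl⟩ : ∃ y, 0 < y ∧ β = y ^ 2 := ⟨√β, by positivity, by rw [Real.sq_sqrt hβ.le]⟩
  have hm : 0 < x * y := mul_pos hx hy
  have h1 : 0 ≤ (x * y) * (x * y - 1) ^ 2 * (x * y + 2) := by positivity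
  nlinarith [sq_nonneg (x - y)]

theorem cube_tangent {x u v r s : ℝ} (hx : 0 < x) (hu : 0 < u) (hv : 0 < v) (hr : 0 < r)
    (hs : 0 < s) : 3 * x * r * s - u * r ^ 2 * s - v * r * s ^ 2 ≤ x ^ 3 / (u * v) := by
  have h := amgm3 (α := x / (u * r)) (β := x / (v * s)) (by positivity) (by positivity)
  have h2 := mul_le_mul_of_nonneg_left h (show 0 ≤ u * v * r ^ 2 * s ^ 2 / x by positivity)
  have e1 : u * v * r ^ 2 * s ^ 2 / x * (3 * (x / (u * r) * (x / (v * s)))) = 3 * x * r * s := by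
    field_simp
  have e2 : u * v * r ^ 2 * s ^ 2 / x * ((x / (u * r) * (x / (v * s))) ^ 2 + x / (u * r) +
      x / (v * s)) = x ^ 3 / (u * v) + v * r * s ^ 2 + u * r ^ 2 * s := by
    field_simp
  rw [e1, e2] at h2
  linarith

theorem cube_subadd {x₁ u₁ v₁ x₂ u₂ v₂ : ℝ} (h1 : 0 < x₁) (h2 : 0 < u₁) (h3 : 0 < v₁)
    (h4 : 0 < x₂) (h5 : 0 < u₂) (h6 : 0 < v₂) :
    (x₁ + x₂) ^ 3 / ((u₁ + u₂) * (v₁ + v₂)) ≤ x₁ ^ 3 / (u₁ * v₁) + x₂ ^ 3 / (u₂ * v₂) := by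
  have a := cube_tangent (r := (x₁ + x₂) / (u₁ + u₂)) (s := (x₁ + x₂) / (v₁ + v₂)) h1 h2 h3
    (by positivity) (by positivity)
  have b := cube_tangent (r := (x₁ + x₂) / (u₁ + u₂)) (s := (x₁ + x₂) / (v₁ + v₂)) h4 h5 h6
    (by positivity) (by positivity)
  refine le_trans (le_of_eq ?_) (add_le_add a b)
  field_simp
  ring

theorem sq_subadd {x₁ u₁ x₂ u₂ : ℝ} (h2 : 0 < u₁) (h5 : 0 < u₂) :
    (x₁ + x₂) ^ 2 / (u₁ + u₂) ≤ x₁ ^ 2 / u₁ + x₂ ^ 2 / u₂ := by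
  rw [div_add_div _ _ h2.ne' h5.ne', div_le_div_iff₀ (by positivity) (by positivity)]
  nlinarith [sq_nonneg (x₁ * u₂ - x₂ * u₁), mul_pos h2 h5]

theorem lev_fI_mono {w a b w' a' b' t : ℝ} (hw : 0 ≤ w) (ha : 0 ≤ a) (hb : 0 ≤ b) (ht : 0 < t)
    (h1 : w ≤ w') (h2 : a ≤ a') (h3 : b ≤ b') : lev (fI w a b) t ⊆ lev (fI w' a' b') t := by
  intro τ hτ
  rw [lev_fI_iff hw ha hb ht] at hτ
  rw [lev_fI_iff (hw.trans h1) (ha.trans h2) (hb.trans h3) ht]
  obtain ⟨h0, hw0, h⟩ := hτ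
  refine ⟨h0, lt_of_lt_of_le hw0 h1, lt_of_le_of_lt ?_ h⟩
  have : 0 ≤ exp t - 1 := by have := add_one_le_exp t; linarith
  have : 0 ≤ τ + a' := by linarith
  gcongr

theorem phi_superadd {w₁ a₁ b₁ w₂ a₂ b₂ : ℝ} (hw₁ : 0 ≤ w₁) (ha₁ : 0 ≤ a₁) (hb₁ : 0 ≤ b₁)
    (hw₂ : 0 ≤ w₂) (ha₂ : 0 ≤ a₂) (hb₂ : 0 ≤ b₂) :
    phi w₁ a₁ b₁ + phi w₂ a₂ b₂ ≤ phi (w₁ + w₂) (a₁ + a₂) (b₁ + b₂) := by
  have hw := add_nonneg hw₁ hw₂
  have ha := add_nonneg ha₁ ha₂
  have hb := add_nonneg hb₁ hb₂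
  rw [← (fI_int hw₁ ha₁ hb₁).2, ← (fI_int hw₂ ha₂ hb₂).2, ← (fI_int hw ha hb).2]
  refine integral_super (fI_int hw₁ ha₁ hb₁).1 (fI_int hw₂ ha₂ hb₂).1 (fI_int hw ha hb).1
    (fun τ hτ => fI_nonneg hw₁ ha₁ hb₁ hτ) (fun τ hτ => fI_nonneg hw₂ ha₂ hb₂ hτ)
    (fun τ hτ => fI_nonneg hw ha hb hτ) fun t ht => vol_super (down_fI hw₁ ha₁ hb₁ ht)
      (down_fI hw₂ ha₂ hb₂ ht) (down_fI hw ha hb ht)
      (lev_fI_mono hw₁ ha₁ hb₁ ht (by linarith) (by linarith) (by linarith))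
      (lev_fI_mono hw₂ ha₂ hb₂ ht (by linarith) (by linarith) (by linarith)) ?_
  intro σ hσ τ hτ
  rw [lev_fI_iff hw₁ ha₁ hb₁ ht] at hσ
  rw [lev_fI_iff hw₂ ha₂ hb₂ ht] at hτ
  rw [lev_fI_iff hw ha hb ht]
  obtain ⟨s0, w1, hσ⟩ := hσ
  obtain ⟨t0, w2, hτ⟩ := hτ
  refine ⟨by positivity, by positivity, ?_⟩
  have hc : 0 ≤ exp t - 1 := by have := add_one_le_exp t; linarith
  have q1 := mul_le_mul_of_nonneg_left (sq_subadd (x₁ := σ) (x₂ := τ) w1 w2) hc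
  have q2 := mul_le_mul_of_nonneg_left (cube_subadd (u₁ := σ + a₁) (v₁ := σ + b₁) (u₂ := τ + a₂)
    (v₂ := τ + b₂) s0 (by positivity) (by positivity) t0 (by positivity) (by positivity))
    (exp_pos t).le
  have e : (σ + τ + (a₁ + a₂)) * (σ + τ + (b₁ + b₂)) =
      (σ + a₁ + (τ + a₂)) * (σ + b₁ + (τ + b₂)) := by ring
  rw [e]
  linarith

theorem phi_zero (b : ℝ) : phi 0 0 b = 0 := by
  have := S2_of_roots (x := 0) (y := b)
  unfold phi
  simp only [zero_add, zero_mul, negMulLog_zero] at this ⊢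
  linarith

theorem phi_sum {ι : Type*} (T : Finset ι) (w a b : ι → ℝ) (hw : ∀ i, 0 ≤ w i)
    (ha : ∀ i, 0 ≤ a i) (hb : ∀ i, 0 ≤ b i) :
    ∑ i ∈ T, phi (w i) (a i) (b i) ≤ phi (∑ i ∈ T, w i) (∑ i ∈ T, a i) (∑ i ∈ T, b i) := by
  classical
  induction T using Finset.induction_on with
  | empty => simp [phi_zero]
  | insert j T hj ih =>
    rw [Finset.sum_insert hj, Finset.sum_insert hj, Finset.sum_insert hj, Finset.sum_insert hj]
    refine le_trans ?_ (phi_superadd (hw j) (ha j) (hb j) (Finset.sum_nonneg fun i _ => hw i)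
      (Finset.sum_nonneg fun i _ => ha i) (Finset.sum_nonneg fun i _ => hb i))
    linarith

theorem phi_mono {w a b b' : ℝ} (hw : 0 ≤ w) (ha : 0 ≤ a) (hb : 0 ≤ b) (h : b ≤ b') :
    phi w a b ≤ phi w a b' := by
  have := phi_superadd hw ha hb le_rfl le_rfl (sub_nonneg.2 h)
  rw [phi_zero] at this
  simpa using this

end Crest.Agent.R341
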