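import Mathlib
import Crest.Prelude.Def_QState
import Crest.Prelude.Def_QChannel
import Crest.Agent.R341.Scalar
import Crest.Agent.R341.Det

set_option autoImplicit false
set_option linter.unusedSectionVars false
set_option linter.unusedSimpArgs false

namespace Crest.Agent.R341

open Matrix Real Crest.Quantum MeasureTheory
open scoped ComplexOrder MatrixOrder Kronecker

variable {n m : Type*} [Fintype n] [DecidableEq n] [Fintype m] [DecidableEq m]

/-- real part of the trace -/
noncomputable def tr (M : Matrix n n ℂ) : ℝ := M.trace.re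

theorem tr_eq_sum (M : Matrix n n ℂ) : tr M = ∑ i, (M i i).re := by
  simp [tr, Matrix.trace]

theorem tr_add (A B : Matrix n n ℂ) : tr (A + B) = tr A + tr B := by simp [tr]

theorem tr_smul (c : ℝ) (A : Matrix n n ℂ) : tr ((c : ℂ) • A) = c * tr A := by simp [tr]

theorem tr_sum {ι : Type*} (s : Finset ι) (A : ι → Matrix n n ℂ) :
    tr (∑ i ∈ s, A i) = ∑ i ∈ s, tr (A i) := by simp [tr, Matrix.trace_sum]

theorem diag_re_nonneg {A : Matrix n n ℂ} (h : A.PosSemidef) (j : n) : 0 ≤ (A j j).re :=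
  (Complex.nonneg_iff.1 h.diag_nonneg).1

theorem tr_nonneg {A : Matrix n n ℂ} (h : A.PosSemidef) : 0 ≤ tr A := by
  rw [tr_eq_sum]; exact Finset.sum_nonneg fun j _ => diag_re_nonneg h j

theorem tr_coe {A : Matrix n n ℂ} (h : A.IsHermitian) : (tr A : ℂ) = A.trace := by
  rw [tr_eq_sum, Matrix.trace]
  push_cast
  exact Finset.sum_congr rfl fun j _ => diag_coe h j

theorem tr_eq_eig {A : Matrix n n ℂ} (h : A.IsHermitian) : tr A = ∑ i, h.eigenvalues i := by
  apply Complex.ofReal_injective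
  rw [tr_coe h, h.trace_eq_sum_eigenvalues]
  push_cast; rfl

theorem tr_conj {U : Matrix n n ℂ} (hU : Uᴴ * U = 1) (M : Matrix n n ℂ) :
    tr (U * M * Uᴴ) = tr M := by
  unfold tr
  rw [Matrix.trace_mul_cycle, hU, Matrix.one_mul]

theorem vn_eq_sum {M : Matrix n n ℂ} (h : M.IsHermitian) :
    vnEntropy M = ∑ i, negMulLog (h.eigenvalues i) := by
  unfold vnEntropy
  rw [dif_pos h, ← Finset.sum_neg_distrib]
  simp [negMulLog]

theorem vn_roots {M : Matrix n n ℂ} (h : M.IsHermitian) :
    vnEntropy M = (M.charpoly.roots.map fun z => negMulLog z.re).sum := by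
  rw [vn_eq_sum h, h.roots_charpoly_eq_eigenvalues, Multiset.map_map]
  rfl

theorem vn_of_charpoly {M : Matrix n n ℂ} {N : Matrix m m ℂ} (hM : M.IsHermitian)
    (hN : N.IsHermitian) (h : M.charpoly = N.charpoly) : vnEntropy M = vnEntropy N := by
  rw [vn_roots hM, vn_roots hN, h]

theorem vn_submatrix {M : Matrix n n ℂ} (hM : M.IsHermitian) (e : m ≃ n) :
    vnEntropy (M.submatrix e e) = vnEntropy M :=
  vn_of_charpoly (hM.submatrix e) hM (Matrix.charpoly_reindex e.symm M)

theorem vn_conj {U M : Matrix n n ℂ} (hU : Uᴴ * U = 1) (hM : M.IsHermitian) :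
    vnEntropy (U * M * Uᴴ) = vnEntropy M := by
  refine vn_of_charpoly (Matrix.isHermitian_mul_mul_conjTranspose U hM) hM ?_
  rw [Matrix.charpoly_mul_comm, ← Matrix.mul_assoc, hU, Matrix.one_mul]

theorem herm_diag (d : n → ℝ) : (diagonal fun i => (d i : ℂ)).IsHermitian := by
  rw [Matrix.IsHermitian, diagonal_conjTranspose]
  congr 1
  ext i; simp

theorem vn_diagonal (d : n → ℝ) :
    vnEntropy (diagonal fun i => (d i : ℂ)) = ∑ i, negMulLog (d i) := by
  rw [vn_roots (herm_diag d), Matrix.charpoly_diagonal, Polynomial.roots_prod]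
  · simp
  · simp [Finset.prod_ne_zero_iff, Polynomial.X_sub_C_ne_zero]

theorem vn_spec {U : Matrix n n ℂ} (hU : Uᴴ * U = 1) (d : n → ℝ) :
    vnEntropy (U * (diagonal fun i => (d i : ℂ)) * Uᴴ) = ∑ i, negMulLog (d i) := by
  rw [vn_conj hU (herm_diag d), vn_diagonal]

theorem conj_diag_apply (U : Matrix n n ℂ) (d : n → ℝ) (i : n) :
    ((U * (diagonal fun i => (d i : ℂ)) * Uᴴ) i i).re = ∑ j, Complex.normSq (U i j) * d j := by
  rw [Matrix.mul_apply, Complex.re_sum]
  refine Finset.sum_congr rfl fun j _ => ?_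
  rw [Matrix.mul_diagonal, conjTranspose_apply, Complex.star_def, mul_right_comm,
    Complex.mul_conj]
  simp

/-- Peierls: the entropy is at most the entropy of the diagonal -/
theorem vn_le_diag {M : Matrix n n ℂ} (h : M.PosSemidef) :
    vnEntropy M ≤ ∑ i, negMulLog (M i i).re := by
  obtain ⟨U, h1, h2, h3⟩ := spec h.1
  have row : ∀ i, ∑ j, Complex.normSq (U i j) = 1 := by
    intro i
    have := conj_diag_apply U (fun _ => 1) i
    simp only [Complex.ofReal_one, diagonal_one, Matrix.mul_one, h1, one_apply_eq, Complex.one_re,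
      mul_one] at this
    exact this.symm
  have col : ∀ j, ∑ i, Complex.normSq (U i j) = 1 := by
    intro j
    have := conj_diag_apply Uᴴ (fun _ => 1) j
    simp only [Complex.ofReal_one, diagonal_one, Matrix.mul_one, conjTranspose_conjTranspose, h2,
      one_apply_eq, Complex.one_re, mul_one, conjTranspose_apply, Complex.star_def,
      Complex.normSq_conj] at this
    exact this.symm
  rw [vn_eq_sum h.1]
  have key : ∀ i, ∑ j, Complex.normSq (U i j) * negMulLog (h.1.eigenvalues j) ≤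
      negMulLog (M i i).re := by
    intro i
    have e : (M i i).re = ∑ j, Complex.normSq (U i j) * h.1.eigenvalues j := by
      conv_lhs => rw [h3]
      exact conj_diag_apply U _ i
    rw [e]
    exact concaveOn_negMulLog.le_map_sum (t := Finset.univ) (w := fun j => Complex.normSq (U i j))
      (p := fun j => h.1.eigenvalues j) (fun j _ => Complex.normSq_nonneg _) (row i)
      (fun j _ => h.eigenvalues_nonneg j)
  refine le_trans (le_of_eq ?_) (Finset.sum_le_sum fun i _ => key i)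
  rw [Finset.sum_comm]
  refine Finset.sum_congr rfl fun j _ => ?_
  rw [← Finset.sum_mul, col, one_mul]

theorem vn_smul {M : Matrix n n ℂ} (h : M.IsHermitian) (c : ℝ) :
    vnEntropy ((c : ℂ) • M) = c * vnEntropy M + negMulLog c * tr M := by
  obtain ⟨U, -, h2, h3⟩ := spec h
  have e : (c : ℂ) • M = U * (diagonal fun i => ((c * h.eigenvalues i : ℝ) : ℂ)) * Uᴴ := by
    conv_lhs => rw [h3]
    rw [← Matrix.smul_mul, ← Matrix.mul_smul, ← diagonal_smul]
    congr 3
    ext i; simp
  rw [e, vn_spec h2, vn_eq_sum h, tr_eq_eig h, Finset.mul_sum, Finset.mul_sum,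
    ← Finset.sum_add_distrib]
  refine Finset.sum_congr rfl fun i _ => ?_
  rw [negMulLog_mul]; ring

/-- homogeneous (trace-normalised) entropy -/
noncomputable def St (M : Matrix n n ℂ) : ℝ := vnEntropy M - negMulLog (tr M)

theorem St_smul {M : Matrix n n ℂ} (h : M.IsHermitian) (c : ℝ) :
    St ((c : ℂ) • M) = c * St M := by
  unfold St
  rw [vn_smul h, tr_smul, negMulLog_mul]; ring

theorem St_of_trace {M : Matrix n n ℂ} (h : M.trace = 1) : St M = vnEntropy M := by
  unfold St tr
  rw [h]; simp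

theorem gibbs {x c : ℝ} (hx : 0 ≤ x) (hc : 0 ≤ c) (h : c = 0 → x = 0) :
    negMulLog x ≤ -x * log c + c - x := by
  rcases hc.eq_or_lt with rfl | hc
  · rw [h rfl]; simp
  rcases hx.eq_or_lt with rfl | hx
  · simpa using hc.le
  have := Real.log_le_sub_one_of_pos (div_pos hc hx)
  rw [log_div hc.ne' hx.ne'] at this
  have h2 := mul_le_mul_of_nonneg_left this hx.le
  have e : x * (c / x - 1) = c - x := by field_simp
  rw [e] at h2
  unfold negMulLog
  linarith

/-- classical: normalised entropy is below the cross entropy -/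
theorem gibbs_sum {ι : Type*} [Fintype ι] (x q : ι → ℝ) (hx : ∀ i, 0 ≤ x i) (hq : ∀ i, 0 ≤ q i)
    (hq1 : ∑ i, q i ≤ 1) (h : ∀ i, q i = 0 → x i = 0) :
    ∑ i, negMulLog (x i) - negMulLog (∑ i, x i) ≤ ∑ i, -x i * log (q i) := by
  set X := ∑ i, x i with hX
  have X0 : 0 ≤ X := Finset.sum_nonneg fun i _ => hx i
  rcases X0.eq_or_lt with hz | hp
  · have : ∀ i, x i = 0 := fun i =>
      (Finset.sum_eq_zero_iff_of_nonneg fun i _ => hx i).1 hz.symm i (Finset.mem_univ _)
    rw [← hz]
    simp [this]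
  have key : ∀ i, negMulLog (x i) ≤ -x i * log X + -x i * log (q i) + X * q i - x i := by
    intro i
    have := gibbs (hx i) (mul_nonneg X0 (hq i)) fun h0 =>
      h i ((mul_eq_zero.1 h0).resolve_left hp.ne')
    rcases (hq i).eq_or_lt with h0 | h0
    · rw [h i h0.symm, ← h0]; simp
    · rw [log_mul hp.ne' h0.ne'] at this
      linarith
  have := Finset.sum_le_sum fun i (_ : i ∈ Finset.univ) => key i
  rw [Finset.sum_sub_distrib, Finset.sum_add_distrib, Finset.sum_add_distrib, ← Finset.sum_mul,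
    ← Finset.mul_sum, Finset.sum_neg_distrib, ← hX] at this
  unfold negMulLog at this ⊢
  nlinarith

theorem classical_superadd {ι : Type*} [Fintype ι] (x y : ι → ℝ) (hx : ∀ i, 0 ≤ x i)
    (hy : ∀ i, 0 ≤ y i) :
    (∑ i, negMulLog (x i) - negMulLog (∑ i, x i)) + (∑ i, negMulLog (y i) - negMulLog (∑ i, y i)) ≤
      ∑ i, negMulLog (x i + y i) - negMulLog (∑ i, x i + ∑ i, y i) := by
  set W := ∑ i, x i + ∑ i, y i with hW
  have X0 : 0 ≤ ∑ i, x i := Finset.sum_nonneg fun i _ => hx i
  have Y0 : 0 ≤ ∑ i, y i := Finset.sum_nonneg fun i _ => hy i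
  rcases (add_nonneg X0 Y0).eq_or_lt with hz | hp
  · have h1 : ∀ i, x i = 0 := fun i =>
      (Finset.sum_eq_zero_iff_of_nonneg fun i _ => hx i).1 (by linarith) i (Finset.mem_univ _)
    have h2 : ∀ i, y i = 0 := fun i =>
      (Finset.sum_eq_zero_iff_of_nonneg fun i _ => hy i).1 (by linarith) i (Finset.mem_univ _)
    simp [hW, h1, h2]
  rw [← hW] at hp
  have hq : ∀ i, 0 ≤ (x i + y i) / W := fun i => div_nonneg (add_nonneg (hx i) (hy i)) hp.le
  have hq1 : ∑ i, (x i + y i) / W ≤ 1 := by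
    rw [← Finset.sum_div, Finset.sum_add_distrib, div_self hp.ne']
  have z : ∀ i, (x i + y i) / W = 0 → x i = 0 ∧ y i = 0 := by
    intro i h
    have := (div_eq_zero_iff.1 h).resolve_right hp.ne'
    constructor <;> linarith [hx i, hy i]
  have a := gibbs_sum x _ hx hq hq1 fun i h => (z i h).1
  have b := gibbs_sum y _ hy hq hq1 fun i h => (z i h).2
  refine (add_le_add a b).trans (le_of_eq ?_)
  have e : negMulLog W = ∑ i, -(x i + y i) * log W := by
    rw [← Finset.sum_mul, Finset.sum_neg_distrib, Finset.sum_add_distrib]; rfl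
  rw [e, ← Finset.sum_add_distrib, ← Finset.sum_sub_distrib]
  refine Finset.sum_congr rfl fun i _ => ?_
  rcases (add_nonneg (hx i) (hy i)).eq_or_lt with h0 | h0
  · have h1 : x i = 0 := by linarith [hx i, hy i]
    have h2 : y i = 0 := by linarith [hx i, hy i]
    simp [h1, h2]
  · rw [log_div h0.ne' hp.ne']
    unfold negMulLog; ring

theorem St_superadd {A B : Matrix n n ℂ} (hA : A.PosSemidef) (hB : B.PosSemidef) :
    St A + St B ≤ St (A + B) := by
  have hS := hA.add hB
  obtain ⟨U, h1, h2, h3⟩ := spec hS.1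
  have h1' : Uᴴᴴ * Uᴴ = 1 := by rwa [conjTranspose_conjTranspose]
  have a := vn_le_diag (hA.mul_mul_conjTranspose_same Uᴴ)
  have b := vn_le_diag (hB.mul_mul_conjTranspose_same Uᴴ)
  rw [vn_conj h1' hA.1] at a
  rw [vn_conj h1' hB.1] at b
  have c := classical_superadd (fun i => ((Uᴴ * A * Uᴴᴴ) i i).re) (fun i => ((Uᴴ * B * Uᴴᴴ) i i).re)
    (diag_re_nonneg (hA.mul_mul_conjTranspose_same Uᴴ))
    (diag_re_nonneg (hB.mul_mul_conjTranspose_same Uᴴ))
  simp only [← tr_eq_sum, tr_conj h1'] at c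
  have e : ∀ i, ((Uᴴ * A * Uᴴᴴ) i i).re + ((Uᴴ * B * Uᴴᴴ) i i).re = hS.1.eigenvalues i := by
    intro i
    rw [← Complex.add_re, ← Matrix.add_apply, ← Matrix.add_mul, ← Matrix.mul_add]
    conv_lhs => rw [h3]
    rw [conjTranspose_conjTranspose]
    simp only [← Matrix.mul_assoc, h2, Matrix.one_mul]
    rw [Matrix.mul_assoc, h2, Matrix.mul_one]
    simp
  simp only [e] at c
  unfold St
  rw [vn_eq_sum hS.1, tr_add]
  linarith

theorem vn_kron {A : Matrix n n ℂ} {B : Matrix m m ℂ} (hA : A.IsHermitian) (hB : B.IsHermitian)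
    (tA : A.trace = 1) (tB : B.trace = 1) :
    vnEntropy (A ⊗ₖ B) = vnEntropy A + vnEntropy B := by
  obtain ⟨U, -, h2, h3⟩ := spec hA
  obtain ⟨V, -, k2, k3⟩ := spec hB
  have e : A ⊗ₖ B = (U ⊗ₖ V) *
      (diagonal fun p : n × m => ((hA.eigenvalues p.1 * hB.eigenvalues p.2 : ℝ) : ℂ)) *
        (U ⊗ₖ V)ᴴ := by
    conv_lhs => rw [h3, k3]
    rw [Matrix.mul_kronecker_mul, Matrix.mul_kronecker_mul, Matrix.diagonal_kronecker_diagonal,
      Matrix.conjTranspose_kronecker]
    congr 3
    ext p; simp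
  have hU : (U ⊗ₖ V)ᴴ * (U ⊗ₖ V) = 1 := by
    rw [Matrix.conjTranspose_kronecker, ← Matrix.mul_kronecker_mul, h2, k2,
      Matrix.one_kronecker_one]
  have sA : ∑ i, hA.eigenvalues i = 1 := by rw [← tr_eq_eig, tr, tA, Complex.one_re]
  have sB : ∑ i, hB.eigenvalues i = 1 := by rw [← tr_eq_eig, tr, tB, Complex.one_re]
  rw [e, vn_spec hU, vn_eq_sum hA, vn_eq_sum hB, Fintype.sum_prod_type]
  simp only [negMulLog_mul, Finset.sum_add_distrib, ← Finset.sum_mul, ← Finset.mul_sum, sA, sB,
    one_mul]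

theorem block_psd {k : Type*} {M : Matrix (k × n) (k × n) ℂ} (h : M.PosSemidef) (s : k) :
    (block M s s).PosSemidef := h.submatrix fun i => (s, i)

theorem tr_blocks (M : Matrix (Bool × n) (Bool × n) ℂ) :
    tr M = tr (block M false false) + tr (block M true true) := by
  simp only [tr_eq_sum, Fintype.sum_prod_type, Fintype.sum_bool, block, of_apply]
  ring

theorem classical_subadd {ι κ : Type*} [Fintype ι] [Fintype κ] (x : ι × κ → ℝ)
    (hx : ∀ p, 0 ≤ x p) (h1 : ∑ p, x p = 1) :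
    ∑ p, negMulLog (x p) ≤
      ∑ i, negMulLog (∑ j, x (i, j)) + ∑ j, negMulLog (∑ i, x (i, j)) := by
  have r0 : ∀ i, 0 ≤ ∑ j, x (i, j) := fun i => Finset.sum_nonneg fun j _ => hx _
  have c0 : ∀ j, 0 ≤ ∑ i, x (i, j) := fun j => Finset.sum_nonneg fun i _ => hx _
  have rl : ∀ p : ι × κ, x p ≤ ∑ j, x (p.1, j) := fun p =>
    Finset.single_le_sum (f := fun j => x (p.1, j)) (fun j _ => hx _) (Finset.mem_univ p.2)
  have cl : ∀ p : ι × κ, x p ≤ ∑ i, x (i, p.2) := fun p =>
    Finset.single_le_sum (f := fun i => x (i, p.2)) (fun i _ => hx _) (Finset.mem_univ p.1)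
  have s1 : ∑ i, ∑ j, x (i, j) = 1 := by rw [← h1, Fintype.sum_prod_type]
  have s2 : ∑ j, ∑ i, x (i, j) = 1 := by rw [← s1, Finset.sum_comm]
  have g := gibbs_sum x (fun p => (∑ j, x (p.1, j)) * ∑ i, x (i, p.2)) hx
    (fun p => mul_nonneg (r0 _) (c0 _))
    (by rw [Fintype.sum_prod_type]
        simp only [← Finset.mul_sum, ← Finset.sum_mul, s1, s2, one_mul, le_refl])
    (fun p h => by
      rcases mul_eq_zero.1 h with h | h
      · linarith [rl p, hx p]
      · linarith [cl p, hx p])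
  rw [h1, negMulLog_one, sub_zero] at g
  refine g.trans (le_of_eq ?_)
  have e : ∀ p : ι × κ, -x p * log ((∑ j, x (p.1, j)) * ∑ i, x (i, p.2)) =
      -x p * log (∑ j, x (p.1, j)) + -x p * log (∑ i, x (i, p.2)) := by
    intro p
    rcases (hx p).eq_or_lt with h | h
    · rw [← h]; simp
    · rw [log_mul (by linarith [rl p]) (by linarith [cl p])]; ring
  simp only [e, Finset.sum_add_distrib]
  congr 1
  · rw [Fintype.sum_prod_type]
    refine Finset.sum_congr rfl fun i _ => ?_
    simp only [negMulLog, ← Finset.sum_mul, Finset.sum_neg_distrib]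
  · rw [Fintype.sum_prod_type, Finset.sum_comm]
    refine Finset.sum_congr rfl fun i _ => ?_
    simp only [negMulLog, ← Finset.sum_mul, Finset.sum_neg_distrib]

/-- subadditivity for a qubit times a second system -/
theorem vn_block_le {M : Matrix (Bool × n) (Bool × n) ℂ} (h : M.PosSemidef) (h1 : tr M = 1) :
    vnEntropy M ≤ binEntropy (tr (block M true true)) +
      vnEntropy (block M false false + block M true true) := by
  have hS := (block_psd h false).add (block_psd h true)
  obtain ⟨U, k1, k2, k3⟩ := spec hS.1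
  have k1' : Uᴴᴴ * Uᴴ = 1 := by rwa [conjTranspose_conjTranspose]
  set W : Matrix (Bool × n) (Bool × n) ℂ := (1 : Matrix Bool Bool ℂ) ⊗ₖ Uᴴ with hW
  have hW1 : Wᴴ * W = 1 := by
    rw [hW, Matrix.conjTranspose_kronecker, ← Matrix.mul_kronecker_mul, k1', conjTranspose_one,
      Matrix.one_mul, Matrix.one_kronecker_one]
  have hM' := h.mul_mul_conjTranspose_same W
  have a := vn_le_diag hM'
  rw [vn_conj hW1 h.1] at a
  have ent : ∀ s j, (W * M * Wᴴ) (s, j) (s, j) = (Uᴴ * block M s s * Uᴴᴴ) j j := by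
    intro s j
    simp [hW, block, Matrix.mul_apply, Fintype.sum_prod_type, Matrix.one_apply,
      Matrix.kroneckerMap_apply, Finset.sum_ite_eq, ite_mul, apply_ite]
  have b := classical_subadd (fun p => ((W * M * Wᴴ) p p).re) (diag_re_nonneg hM')
    (by rw [← tr_eq_sum, tr_conj hW1, h1])
  refine a.trans (b.trans (le_of_eq ?_))
  simp only [ent, ← tr_eq_sum, tr_conj k1']
  congr 1
  · rw [Fintype.sum_bool, binEntropy_eq_negMulLog_add_negMulLog_one_sub]
    have := tr_blocks M
    congr 2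
    linarith
  · rw [vn_eq_sum hS.1]
    refine Finset.sum_congr rfl fun j _ => ?_
    congr 1
    rw [Fintype.sum_bool, add_comm, ← Complex.add_re, ← Matrix.add_apply, ← Matrix.add_mul,
      ← Matrix.mul_add]
    conv_lhs => rw [k3]
    rw [conjTranspose_conjTranspose]
    simp only [← Matrix.mul_assoc, k2, Matrix.one_mul]
    rw [Matrix.mul_assoc, k2, Matrix.mul_one]
    simp

/-- log-determinant integrand -/
noncomputable def KM (M : Matrix n n ℂ) (τ : ℝ) : ℝ :=
  log (rdet ((τ : ℂ) • (1 : Matrix n n ℂ) + M)) - Fintype.card n * log τ - tr M * log (1 + 1 / τ)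

theorem KM_eq {M : Matrix n n ℂ} (h : M.PosSemidef) {τ : ℝ} (hτ : 0 < τ) :
    KM M τ = ∑ i, kk (h.1.eigenvalues i) τ := by
  unfold KM kk
  rw [rdet_smul_add h.1, log_prod fun i _ => by have := h.eigenvalues_nonneg i; positivity,
    tr_eq_eig h.1, Finset.sum_sub_distrib, ← Finset.sum_mul]
  congr 1
  simp only [log_one_add_div (h.eigenvalues_nonneg _) hτ, Finset.sum_sub_distrib]
  simp

theorem KM_int {M : Matrix n n ℂ} (h : M.PosSemidef) :
    IntegrableOn (KM M) (Set.Ioi 0) ∧ ∫ τ in Set.Ioi 0, KM M τ = vnEntropy M := by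
  have he : Set.EqOn (KM M) (fun τ => ∑ i, kk (h.1.eigenvalues i) τ) (Set.Ioi 0) :=
    fun τ hτ => KM_eq h hτ
  have hi : ∀ i ∈ Finset.univ, Integrable (fun τ => kk (h.1.eigenvalues i) τ)
      (volume.restrict (Set.Ioi 0)) := fun i _ => kk_integrable (h.eigenvalues_nonneg i)
  refine ⟨(integrableOn_congr_fun he measurableSet_Ioi).2 (integrable_finsetSum _ hi), ?_⟩
  rw [setIntegral_congr_fun measurableSet_Ioi he, integral_finsetSum _ hi, vn_eq_sum h.1]
  exact Finset.sum_congr rfl fun i _ => kk_integral (h.eigenvalues_nonneg i)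

theorem vn_two {M : Matrix Bool Bool ℂ} (h : M.IsHermitian) :
    vnEntropy M = S2 (tr M) (rdet M) := by
  rw [vn_eq_sum h, tr_eq_eig h, rdet_eq_prod h, Fintype.sum_bool, Fintype.sum_bool,
    Fintype.prod_bool, S2_of_roots]

end Crest.Agent.R341
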