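import Crest.Agent.R341.P4
import Crest.Agent.R345.Kraus
import Crest.Prelude.Def_AmpDamp

set_option autoImplicit false
set_option linter.unusedSectionVars false
set_option linter.unusedSimpArgs false

namespace Crest.Agent.R341

open Matrix Real Crest.Quantum Crest.MathPhysics.AmpDamp
open scoped ComplexOrder MatrixOrder Kronecker

variable {n m : Type*} [Fintype n] [DecidableEq n] [Fintype m] [DecidableEq m]

theorem tr_submatrix (M : Matrix n n ℂ) (e : m ≃ n) : tr (M.submatrix e e) = tr M := by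
  rw [tr_eq_sum, tr_eq_sum]
  exact Equiv.sum_comp e fun i => (M i i).re

theorem St_submatrix {M : Matrix n n ℂ} (hM : M.IsHermitian) (e : m ≃ n) :
    St (M.submatrix e e) = St M := by
  unfold St
  rw [vn_submatrix hM, tr_submatrix]

theorem swap_psd {X Y Z : Matrix n n ℂ} (h : (fromBlocks X Y Yᴴ Z).PosSemidef) :
    (fromBlocks Z Yᴴ Yᴴᴴ X).PosSemidef := by
  have := h.submatrix (Sum.swap : n ⊕ n → n ⊕ n)
  rwa [fromBlocks_submatrix_sum_swap_sum_swap, ← conjTranspose_conjTranspose Y,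
    conjTranspose_conjTranspose Yᴴ] at this

theorem P4_St' {X Y Z A : Matrix n n ℂ} (hA : A.PosSemidef)
    (h : (fromBlocks X Y Yᴴ Z).PosSemidef) {δ : ℝ} (hδ : δ ^ 2 = tr A * tr X) :
    (fromBlocks X Y Yᴴ (Z + A)).PosSemidef ∧
      St Z + St A + St X + Gt (tr Z + tr A + tr X) δ ≤ St (fromBlocks X Y Yᴴ (Z + A)) := by
  have h' := swap_psd h
  have k := P4_St hA h' hδ
  have p := blocks_add h' hA
  have e : fromBlocks X Y Yᴴ (Z + A) =
      (fromBlocks (Z + A) Yᴴ Yᴴᴴ X).submatrix (Equiv.sumComm n n) (Equiv.sumComm n n) := by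
    rw [Equiv.sumComm_apply, fromBlocks_submatrix_sum_swap_sum_swap, conjTranspose_conjTranspose]
  rw [e, St_submatrix p.1]
  exact ⟨p.submatrix _, k⟩

theorem scale_psd {X Y Z : Matrix n n ℂ} (h : (fromBlocks X Y Yᴴ Z).PosSemidef) (u v : ℝ) :
    (fromBlocks (((u ^ 2 : ℝ) : ℂ) • X) (((u * v : ℝ) : ℂ) • Y) (((u * v : ℝ) : ℂ) • Y)ᴴ
      (((v ^ 2 : ℝ) : ℂ) • Z)).PosSemidef := by
  have := h.mul_mul_conjTranspose_same
    (fromBlocks ((u : ℂ) • (1 : Matrix n n ℂ)) (0 : Matrix n n ℂ) (0 : Matrix n n ℂ)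
      ((v : ℂ) • (1 : Matrix n n ℂ)))
  rw [fromBlocks_conjTranspose, fromBlocks_multiply, fromBlocks_multiply] at this
  convert this using 2 <;> simp [smul_smul, sq, mul_comm] <;>
    rw [← Complex.ofReal_mul, Complex.coe_smul]

theorem smul_psd {X : Matrix n n ℂ} (h : X.PosSemidef) {c : ℝ} (hc : 0 ≤ c) :
    ((c : ℂ) • X).PosSemidef := h.smul (Complex.zero_le_real.2 hc)

/-- main inequality in two-by-two block form -/
theorem main_blocks {X Y Z : Matrix n n ℂ} (h : (fromBlocks X Y Yᴴ Z).PosSemidef)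
    (u₀ u₁ w₀ w₁ β κ : ℝ) (e₀ : u₀ ^ 2 + w₀ ^ 2 + κ ^ 2 = 1) (e₁ : u₁ ^ 2 + w₁ ^ 2 + β ^ 2 = 1)
    {M : Matrix (n ⊕ n) (n ⊕ n) ℂ}
    (hM : M = fromBlocks (((u₀ ^ 2 + w₀ ^ 2 : ℝ) : ℂ) • X + ((β ^ 2 : ℝ) : ℂ) • Z)
      (((u₀ * u₁ + w₀ * w₁ : ℝ) : ℂ) • Y) (((u₀ * u₁ + w₀ * w₁ : ℝ) : ℂ) • Yᴴ)
      (((κ ^ 2 : ℝ) : ℂ) • X + ((u₁ ^ 2 + w₁ ^ 2 : ℝ) : ℂ) • Z)) :
    M.PosSemidef ∧ 4 * (-(κ * w₀) * tr X + β * u₁ * tr Z) ^ 2 ≤ (tr X + tr Z) ^ 2 ∧
      St X + St Z + Gt (tr X + tr Z) (-(κ * w₀) * tr X + β * u₁ * tr Z) ≤ St M := by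
  have hX := blocks_11 h
  have hZ := blocks_22 h
  have x0 := tr_nonneg hX
  have z0 := tr_nonneg hZ
  have h1 := scale_psd h u₀ u₁
  have h2 := scale_psd h w₀ w₁
  have A1 := smul_psd hZ (sq_nonneg β)
  have A2 := smul_psd hX (sq_nonneg κ)
  have k1 := P4_St A1 h1 (δ := β * u₁ * tr Z) (by rw [tr_smul, tr_smul]; ring)
  have p1 := blocks_add h1 A1
  obtain ⟨p2, k2⟩ := P4_St' A2 h2 (δ := -(κ * w₀) * tr X) (by rw [tr_smul, tr_smul]; ring)
  have sa := St_superadd p1 p2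
  have eM : M = fromBlocks (((u₀ ^ 2 : ℝ) : ℂ) • X + ((β ^ 2 : ℝ) : ℂ) • Z)
      (((u₀ * u₁ : ℝ) : ℂ) • Y) (((u₀ * u₁ : ℝ) : ℂ) • Y)ᴴ (((u₁ ^ 2 : ℝ) : ℂ) • Z) +
      fromBlocks (((w₀ ^ 2 : ℝ) : ℂ) • X) (((w₀ * w₁ : ℝ) : ℂ) • Y) (((w₀ * w₁ : ℝ) : ℂ) • Y)ᴴ
        (((w₁ ^ 2 : ℝ) : ℂ) • Z + ((κ ^ 2 : ℝ) : ℂ) • X) := by
    rw [hM, fromBlocks_add]
    congr 1
    · push_cast; module
    · push_cast; module
    · simp only [conjTranspose_smul, Complex.star_def, Complex.conj_ofReal]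
      push_cast; module
    · push_cast; module
  rw [← eM] at sa
  simp only [St_smul hX.1, St_smul hZ.1, tr_smul] at k1 k2
  have s1 : 0 ≤ u₀ ^ 2 * tr X + β ^ 2 * tr Z + u₁ ^ 2 * tr Z := by positivity
  have s2 : 0 ≤ w₁ ^ 2 * tr Z + κ ^ 2 * tr X + w₀ ^ 2 * tr X := by positivity
  have d1 : 4 * (β * u₁ * tr Z) ^ 2 ≤ (u₀ ^ 2 * tr X + β ^ 2 * tr Z + u₁ ^ 2 * tr Z) ^ 2 := by
    have := dom3 (w := u₀ ^ 2 * tr X) (a := β ^ 2 * tr Z) (b := u₁ ^ 2 * tr Z) (by positivity)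
      (by positivity) (by positivity)
    refine le_trans (le_of_eq ?_) this
    ring
  have d2 : 4 * (-(κ * w₀) * tr X) ^ 2 ≤ (w₁ ^ 2 * tr Z + κ ^ 2 * tr X + w₀ ^ 2 * tr X) ^ 2 := by
    have := dom3 (w := w₁ ^ 2 * tr Z) (a := κ ^ 2 * tr X) (b := w₀ ^ 2 * tr X) (by positivity)
      (by positivity) (by positivity)
    refine le_trans (le_of_eq ?_) this
    ring
  have d := dom_add s2 s1 d2 d1
  have g := Gt_subadd s2 s1 d2 d1 d
  have es : w₁ ^ 2 * tr Z + κ ^ 2 * tr X + w₀ ^ 2 * tr X +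
      (u₀ ^ 2 * tr X + β ^ 2 * tr Z + u₁ ^ 2 * tr Z) = tr X + tr Z := by
    linear_combination tr X * e₀ + tr Z * e₁
  rw [es] at d g
  refine ⟨eM ▸ p1.add p2, d, ?_⟩
  have e2 : u₀ ^ 2 * St X + β ^ 2 * St Z + u₁ ^ 2 * St Z +
      (w₁ ^ 2 * St Z + κ ^ 2 * St X + w₀ ^ 2 * St X) = St X + St Z := by
    linear_combination St X * e₀ + St Z * e₁
  linarith

theorem eq_blocks (R : Matrix (Bool × n) (Bool × n) ℂ) :
    R = (fromBlocks (block R false false) (block R false true) (block R true false)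
      (block R true true)).submatrix (Equiv.boolProdEquivSum n) (Equiv.boolProdEquivSum n) := by
  ext ⟨s, i⟩ ⟨t, j⟩
  cases s <;> cases t <;> rfl

theorem block_herm {R : Matrix (Bool × n) (Bool × n) ℂ} (h : R.IsHermitian) :
    block R true false = (block R false true)ᴴ := by
  ext i j
  simp only [block, of_apply, conjTranspose_apply]
  exact (h.apply _ _).symm

theorem blocks_psd {R : Matrix (Bool × n) (Bool × n) ℂ} (h : R.PosSemidef) :
    (fromBlocks (block R false false) (block R false true) (block R false true)ᴴ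
      (block R true true)).PosSemidef := by
  rw [← block_herm h.1, ← posSemidef_submatrix_equiv (Equiv.boolProdEquivSum n), ← eq_blocks]
  exact h

/-- the channel acting on the qubit factor only -/
noncomputable def gB (γ ν : ℝ) (R : Matrix (Bool × n) (Bool × n) ℂ) :
    Matrix (Bool × n) (Bool × n) ℂ := qubitTensor (gadMap γ ν) id R

theorem gB_ff (γ ν : ℝ) (R : Matrix (Bool × n) (Bool × n) ℂ) :
    block (gB γ ν R) false false =
      ((1 - γ * ν : ℝ) : ℂ) • block R false false + ((γ * (1 - ν) : ℝ) : ℂ) • block R true true := by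
  ext i j
  simp [gB, block, qubitTensor, qubitCoeff, gadMap, add_comm]

theorem gB_tt (γ ν : ℝ) (R : Matrix (Bool × n) (Bool × n) ℂ) :
    block (gB γ ν R) true true =
      ((γ * ν : ℝ) : ℂ) • block R false false + ((1 - γ + γ * ν : ℝ) : ℂ) • block R true true := by
  ext i j
  simp [gB, block, qubitTensor, qubitCoeff, gadMap, add_comm]

theorem gB_ft (γ ν : ℝ) (R : Matrix (Bool × n) (Bool × n) ℂ) :
    block (gB γ ν R) false true = ((√(1 - γ) : ℝ) : ℂ) • block R false true := by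
  ext i j
  simp [gB, block, qubitTensor, qubitCoeff, gadMap]

theorem gB_tf (γ ν : ℝ) (R : Matrix (Bool × n) (Bool × n) ℂ) :
    block (gB γ ν R) true false = ((√(1 - γ) : ℝ) : ℂ) • block R true false := by
  ext i j
  simp [gB, block, qubitTensor, qubitCoeff, gadMap]

/-- determinant of the output of a pure state -/
def vv (γ ν p : ℝ) : ℝ := γ * ν * (1 - ν) + γ * (1 - γ) * (p - ν) ^ 2

theorem exists_rot (E F : ℝ) : ∃ c s : ℝ, c ^ 2 + s ^ 2 = 1 ∧ (c * E + s * F) ^ 2 = E ^ 2 + F ^ 2 := by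
  by_cases h : E ^ 2 + F ^ 2 = 0
  · have h1 : E = 0 := by nlinarith [sq_nonneg E, sq_nonneg F]
    have h2 : F = 0 := by nlinarith [sq_nonneg E, sq_nonneg F]
    exact ⟨1, 0, by norm_num, by simp [h1, h2]⟩
  have hp : 0 < E ^ 2 + F ^ 2 := lt_of_le_of_ne (by positivity) (Ne.symm h)
  obtain ⟨r, hr, hr2⟩ : ∃ r : ℝ, 0 < r ∧ r ^ 2 = E ^ 2 + F ^ 2 :=
    ⟨√(E ^ 2 + F ^ 2), by positivity, Real.sq_sqrt hp.le⟩
  refine ⟨E / r, F / r, ?_, ?_⟩
  · field_simp; linarith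
  · have : E / r * E + F / r * F = r := by field_simp; linarith
    rw [this, hr2]

/-- main inequality for the channel -/
theorem main_gad {γ ν : ℝ} (hγ : γ ∈ Set.Icc (0 : ℝ) 1) (hν : ν ∈ Set.Icc (0 : ℝ) 1) (p : ℝ) :
    ∃ e₀ e₁ : ℝ, (e₀ * (1 - p) + e₁ * p) ^ 2 = vv γ ν p ∧
      ∀ R : Matrix (Bool × n) (Bool × n) ℂ, R.PosSemidef → (gB γ ν R).PosSemidef ∧
        4 * (e₀ * tr (block R false false) + e₁ * tr (block R true true)) ^ 2 ≤ tr R ^ 2 ∧
        St (block R false false) + St (block R true true) +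
          Gt (tr R) (e₀ * tr (block R false false) + e₁ * tr (block R true true)) ≤
            St (gB γ ν R) := by
  obtain ⟨g, hg⟩ : ∃ g : ℝ, g ^ 2 = γ := ⟨√γ, Real.sq_sqrt hγ.1⟩
  obtain ⟨r, hr⟩ : ∃ r : ℝ, r ^ 2 = ν := ⟨√ν, Real.sq_sqrt hν.1⟩
  obtain ⟨q, hq⟩ : ∃ q : ℝ, q ^ 2 = 1 - ν := ⟨√(1 - ν), Real.sq_sqrt (by linarith [hν.2])⟩
  set l := √(1 - γ) with hl
  have hl2 : l ^ 2 = 1 - γ := Real.sq_sqrt (by linarith [hγ.2])
  obtain ⟨c, s, hcs, hrot⟩ := exists_rot (g * q * (q * l) * p - g * r * (r * l) * (1 - p))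
    (g * q * r * p + g * r * q * (1 - p))
  refine ⟨-(g * r * (-s * q + c * (r * l))), g * q * (c * (q * l) + s * r), ?_, ?_⟩
  · have e : -(g * r * (-s * q + c * (r * l))) * (1 - p) + g * q * (c * (q * l) + s * r) * p =
        c * (g * q * (q * l) * p - g * r * (r * l) * (1 - p)) +
          s * (g * q * r * p + g * r * q * (1 - p)) := by ring
    rw [e, hrot]
    have e2 : (g * q * (q * l) * p - g * r * (r * l) * (1 - p)) ^ 2 +
        (g * q * r * p + g * r * q * (1 - p)) ^ 2 =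
        g ^ 2 * l ^ 2 * (q ^ 2 * p - r ^ 2 * (1 - p)) ^ 2 + g ^ 2 * q ^ 2 * r ^ 2 := by ring
    rw [e2, hg, hr, hq, hl2]
    unfold vv; ring
  intro R hR
  have n0 : (c * q + s * (r * l)) ^ 2 + (-s * q + c * (r * l)) ^ 2 = 1 - γ * ν := by
    have : (c * q + s * (r * l)) ^ 2 + (-s * q + c * (r * l)) ^ 2 =
        (c ^ 2 + s ^ 2) * (q ^ 2 + r ^ 2 * l ^ 2) := by ring
    rw [this, hcs, hq, hr, hl2]; ring
  have n1 : (c * (q * l) + s * r) ^ 2 + (-s * (q * l) + c * r) ^ 2 = 1 - γ + γ * ν := by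
    have : (c * (q * l) + s * r) ^ 2 + (-s * (q * l) + c * r) ^ 2 =
        (c ^ 2 + s ^ 2) * (q ^ 2 * l ^ 2 + r ^ 2) := by ring
    rw [this, hcs, hq, hr, hl2]; ring
  have n2 : (c * q + s * (r * l)) * (c * (q * l) + s * r) +
      (-s * q + c * (r * l)) * (-s * (q * l) + c * r) = l := by
    have : (c * q + s * (r * l)) * (c * (q * l) + s * r) +
      (-s * q + c * (r * l)) * (-s * (q * l) + c * r) =
        (c ^ 2 + s ^ 2) * (q ^ 2 + r ^ 2) * l := by ring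
    rw [this, hcs, hq, hr]; ring
  have n3 : (g * q) ^ 2 = γ * (1 - ν) := by rw [mul_pow, hg, hq]
  have n4 : (g * r) ^ 2 = γ * ν := by rw [mul_pow, hg, hr]
  obtain ⟨k1, k2, k3⟩ := main_blocks (blocks_psd hR) (c * q + s * (r * l)) (c * (q * l) + s * r)
    (-s * q + c * (r * l)) (-s * (q * l) + c * r) (g * q) (g * r)
    (by rw [n0, n4]; ring) (by rw [n1, n3]; ring)
    (M := fromBlocks (block (gB γ ν R) false false) (block (gB γ ν R) false true)
      (block (gB γ ν R) true false) (block (gB γ ν R) true true))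
    (by rw [n0, n1, n2, n3, n4, gB_ff, gB_tt, gB_ft, gB_tf, block_herm hR.1])
  rw [← tr_blocks] at k2 k3
  rw [← St_submatrix k1.1 (Equiv.boolProdEquivSum n), ← eq_blocks] at k3
  refine ⟨?_, k2, k3⟩
  rw [eq_blocks (gB γ ν R)]
  exact k1.submatrix _

theorem tr_gB (γ ν : ℝ) (R : Matrix (Bool × n) (Bool × n) ℂ) : tr (gB γ ν R) = tr R := by
  rw [tr_blocks, tr_blocks R, gB_ff, gB_tt]
  simp only [tr_add, tr_smul]
  ring

theorem Gt_one (δ : ℝ) : Gt 1 δ = binEntropy ((1 + √(1 - 4 * δ ^ 2)) / 2) := by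
  unfold Gt S2 mup mum
  rw [binEntropy_eq_negMulLog_add_negMulLog_one_sub, negMulLog_one, sub_zero, one_pow]
  congr 2
  ring

theorem gadRate_eq (γ ν p δ : ℝ) (h : δ ^ 2 = vv γ ν p) :
    gadRate γ ν p = binEntropy ((1 - γ) * p + γ * ν) - Gt 1 δ := by
  rw [Gt_one, h]; rfl

end Crest.Agent.R341
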