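import Crest.Agent.R341.Gad

set_option autoImplicit false
set_option linter.unusedSectionVars false
set_option linter.unusedSimpArgs false

namespace Crest.Agent.R341

open Matrix Real Crest.Quantum Crest.MathPhysics.AmpDamp
open scoped ComplexOrder MatrixOrder Kronecker

variable {d e : Type*} [Fintype d] [DecidableEq d] [Fintype e] [DecidableEq e]

/-! ### channels -/

theorem cp_block {k : Type*} [Fintype k] {Φ : Matrix d d ℂ → Matrix e e ℂ}
    (h : IsCompletelyPositive Φ) {M : Matrix (k × d) (k × d) ℂ} (hM : M.PosSemidef) :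
    (blockwise (k := k) Φ M).PosSemidef := by
  let f := Fintype.equivFin k
  have h1 := h _ _ (hM.submatrix fun p : Fin (Fintype.card k) × d => (f.symm p.1, p.2))
  have h2 := h1.submatrix fun p : k × e => (f p.1, p.2)
  convert h2 using 1
  ext p q
  simp only [blockwise, of_apply, submatrix_apply]
  congr 1
  ext i j
  simp [block]

theorem cp_pos {Φ : Matrix d d ℂ → Matrix e e ℂ}
    (h : IsCompletelyPositive Φ) {M : Matrix d d ℂ} (hM : M.PosSemidef) : (Φ M).PosSemidef := by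
  have h1 := cp_block (k := Unit) h (hM.submatrix fun p : Unit × d => p.2)
  exact h1.submatrix fun i : e => ((), i)

theorem chan_density {Φ : Matrix d d ℂ → Matrix e e ℂ} (h : IsChannel Φ) {M : Matrix d d ℂ}
    (hM : IsDensity M) : IsDensity (Φ M) :=
  ⟨cp_pos h.2.1 hM.1, (h.2.2 M).trans hM.2⟩

theorem density_tr {M : Matrix d d ℂ} (hM : IsDensity M) : tr M = 1 := by
  unfold tr; rw [hM.2, Complex.one_re]

theorem chan_tr {Φ : Matrix d d ℂ → Matrix e e ℂ} (h : IsChannel Φ) (M : Matrix d d ℂ) :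
    tr (Φ M) = tr M := by
  unfold tr; rw [h.2.2 M]

theorem exists_normalize [Nonempty d] {B : Matrix d d ℂ} (h : B.PosSemidef) :
    ∃ σ, IsDensity σ ∧ B = (tr B : ℂ) • σ := by
  rcases (tr_nonneg h).eq_or_lt with h0 | h0
  · obtain ⟨i⟩ := ‹Nonempty d›
    refine ⟨diagonal (Pi.single i 1), ⟨PosSemidef.diagonal ?_, by simp⟩, ?_⟩
    · intro j
      by_cases hj : j = i
      · subst hj; simp
      · simp [hj]
    · have : B.trace = 0 := by rw [← tr_coe h.1, ← h0]; simp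
      rw [← h0, h.trace_eq_zero_iff.1 this]; simp
  · refine ⟨(((tr B)⁻¹ : ℝ) : ℂ) • B, ⟨smul_psd h (by positivity), ?_⟩, ?_⟩
    · rw [trace_smul, ← tr_coe h.1, smul_eq_mul, ← Complex.ofReal_mul, inv_mul_cancel₀ h0.ne']
      simp
    · rw [smul_smul, ← Complex.ofReal_mul, mul_inv_cancel₀ h0.ne']
      simp

theorem tensor_eq (γ ν : ℝ) (Ψ : Matrix d d ℂ → Matrix e e ℂ)
    (M : Matrix (Bool × d) (Bool × d) ℂ) :
    qubitTensor (gadMap γ ν) Ψ M = gB γ ν (blockwise Ψ M) := rfl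

theorem block_blockwise {k : Type*} (Ψ : Matrix d d ℂ → Matrix e e ℂ)
    (M : Matrix (k × d) (k × d) ℂ) (s t : k) : block (blockwise Ψ M) s t = Ψ (block M s t) := rfl

/-- the main inequality for a single state -/
theorem single_bound [Nonempty d] {γ ν : ℝ} (hγ : γ ∈ Set.Icc (0 : ℝ) 1)
    (hν : ν ∈ Set.Icc (0 : ℝ) 1) {Ψ : Matrix d d ℂ → Matrix e e ℂ} (hΨ : IsChannel Ψ) (p : ℝ) :
    ∃ e₀ e₁ : ℝ, (e₀ * (1 - p) + e₁ * p) ^ 2 = vv γ ν p ∧
      ∀ ρ : Matrix (Bool × d) (Bool × d) ℂ, IsDensity ρ →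
        IsDensity (qubitTensor (gadMap γ ν) Ψ ρ) ∧
        4 * (e₀ * tr (block ρ false false) + e₁ * tr (block ρ true true)) ^ 2 ≤ 1 ^ 2 ∧
        ∀ σ : Bool → Matrix d d ℂ, (∀ s, IsDensity (σ s)) →
          (∀ s, block ρ s s = (tr (block ρ s s) : ℂ) • σ s) →
          ∑ s, tr (block ρ s s) * vnEntropy (Ψ (σ s)) +
            Gt 1 (e₀ * tr (block ρ false false) + e₁ * tr (block ρ true true)) ≤
            vnEntropy (qubitTensor (gadMap γ ν) Ψ ρ) := by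
  obtain ⟨e₀, e₁, he, H⟩ := main_gad (n := e) hγ hν p
  refine ⟨e₀, e₁, he, fun ρ hρ => ?_⟩
  have hR := cp_block (k := Bool) hΨ.2.1 hρ.1
  obtain ⟨k1, k2, k3⟩ := H _ hR
  have t1 : tr (blockwise Ψ ρ) = 1 := by
    rw [tr_blocks, block_blockwise, block_blockwise, chan_tr hΨ, chan_tr hΨ, ← tr_blocks,
      density_tr hρ]
  simp only [block_blockwise, chan_tr hΨ, t1] at k2 k3
  have dens : IsDensity (qubitTensor (gadMap γ ν) Ψ ρ) := by
    rw [tensor_eq]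
    refine ⟨k1, ?_⟩
    rw [← tr_coe k1.1, tr_gB, t1]; simp
  refine ⟨dens, k2, fun σ hσ hb => ?_⟩
  have : ∀ s, St (Ψ (block ρ s s)) = tr (block ρ s s) * vnEntropy (Ψ (σ s)) := by
    intro s
    conv_lhs => rw [hb s]
    rw [hΨ.1.map_smul, St_smul (chan_density hΨ (hσ s)).1.1,
      St_of_trace (chan_density hΨ (hσ s)).2]
  rw [this, this, ← tensor_eq, St_of_trace dens.2] at k3
  rw [Fintype.sum_bool]
  linarith

/-! ### ensembles over arbitrary finite index types -/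

def Ens {ι : Type*} [Fintype ι] (q : ι → ℝ) (ρ : ι → Matrix d d ℂ) : Prop :=
  (∀ a, 0 ≤ q a) ∧ ∑ a, q a = 1 ∧ ∀ a, IsDensity (ρ a)

noncomputable def chi {ι : Type*} [Fintype ι] (Φ : Matrix d d ℂ → Matrix e e ℂ) (q : ι → ℝ)
    (ρ : ι → Matrix d d ℂ) : ℝ :=
  vnEntropy (∑ a, (q a : ℂ) • Φ (ρ a)) - ∑ a, q a * vnEntropy (Φ (ρ a))

theorem to_fin {ι : Type*} [Fintype ι] (Φ : Matrix d d ℂ → Matrix e e ℂ) {q : ι → ℝ}
    {ρ : ι → Matrix d d ℂ} (h : Ens q ρ) : ∃ (m : ℕ) (q' : Fin m → ℝ) (ρ' : Fin m → Matrix d d ℂ),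
      IsEnsemble q' ρ' ∧ holevoInfo Φ q' ρ' = chi Φ q ρ := by
  let f := (Fintype.equivFin ι).symm
  refine ⟨Fintype.card ι, fun a => q (f a), fun a => ρ (f a),
    ⟨fun a => h.1 _, ?_, fun a => h.2.2 _⟩, ?_⟩
  · rw [Equiv.sum_comp f q, h.2.1]
  · unfold holevoInfo chi
    rw [Equiv.sum_comp f fun a => (q a : ℂ) • Φ (ρ a),
      Equiv.sum_comp f fun a => q a * vnEntropy (Φ (ρ a))]

theorem avg_density {ι : Type*} [Fintype ι] {q : ι → ℝ} {ρ : ι → Matrix d d ℂ} (h : Ens q ρ) :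
    IsDensity (∑ a, (q a : ℂ) • ρ a) := by
  refine ⟨posSemidef_sum _ fun a _ => smul_psd (h.2.2 a).1 (h.1 a), ?_⟩
  rw [trace_sum]
  simp only [trace_smul, (h.2.2 _).2, smul_eq_mul, mul_one]
  rw [← Complex.ofReal_sum, h.2.1]; simp

theorem block_sum {ι k : Type*} [Fintype ι] (q : ι → ℝ) (M : ι → Matrix (k × d) (k × d) ℂ)
    (s t : k) : block (∑ a, (q a : ℂ) • M a) s t = ∑ a, (q a : ℂ) • block (M a) s t := by
  ext i j
  simp [block, Matrix.sum_apply]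

theorem step_upper [Nonempty d] {γ ν : ℝ} (hγ : γ ∈ Set.Icc (0 : ℝ) 1)
    (hν : ν ∈ Set.Icc (0 : ℝ) 1) {Ψ : Matrix d d ℂ → Matrix e e ℂ} (hΨ : IsChannel Ψ)
    {ι : Type*} [Fintype ι] {q : ι → ℝ} {ρ : ι → Matrix (Bool × d) (Bool × d) ℂ} (h : Ens q ρ) :
    ∃ p ∈ Set.Icc (0 : ℝ) 1, ∃ (q' : ι × Bool → ℝ) (ρ' : ι × Bool → Matrix d d ℂ), Ens q' ρ' ∧
      chi (qubitTensor (gadMap γ ν) Ψ) q ρ ≤ gadRate γ ν p + chi Ψ q' ρ' := by
  set t : ι → Bool → ℝ := fun a s => tr (block (ρ a) s s) with ht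
  have t0 : ∀ a s, 0 ≤ t a s := fun a s => tr_nonneg (block_psd (h.2.2 a).1 s)
  have t1 : ∀ a, t a false + t a true = 1 := fun a => by
    rw [ht]; simp only; rw [← tr_blocks, density_tr (h.2.2 a)]
  set p := ∑ a, q a * t a true with hp
  have hp' : ∑ a, q a * t a false = 1 - p := by
    rw [hp, ← h.2.1, ← Finset.sum_sub_distrib]
    refine Finset.sum_congr rfl fun a _ => ?_
    linear_combination q a * t1 a
  have p0 : 0 ≤ p := Finset.sum_nonneg fun a _ => mul_nonneg (h.1 a) (t0 a _)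
  have p1 : p ≤ 1 := by
    have : 0 ≤ ∑ a, q a * t a false := Finset.sum_nonneg fun a _ => mul_nonneg (h.1 a) (t0 a _)
    linarith
  choose σ hσ hb using fun (x : ι × Bool) => exists_normalize (block_psd (h.2.2 x.1).1 x.2)
  obtain ⟨e₀, e₁, he, H⟩ := single_bound hγ hν hΨ p
  refine ⟨p, ⟨p0, p1⟩, fun x => q x.1 * t x.1 x.2, σ,
    ⟨fun x => mul_nonneg (h.1 _) (t0 _ _), ?_, hσ⟩, ?_⟩
  · rw [Fintype.sum_prod_type, ← h.2.1]
    refine Finset.sum_congr rfl fun a _ => ?_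
    rw [Fintype.sum_bool]
    linear_combination q a * t1 a
  have hens : Ens q fun a => qubitTensor (gadMap γ ν) Ψ (ρ a) :=
    ⟨h.1, h.2.1, fun a => (H _ (h.2.2 a)).1⟩
  have hav := avg_density hens
  have up := vn_block_le hav.1 (density_tr hav)
  rw [block_sum, block_sum] at up
  have e1 : tr (∑ a, (q a : ℂ) • block (qubitTensor (gadMap γ ν) Ψ (ρ a)) true true) =
      (1 - γ) * p + γ * ν := by
    rw [tr_sum]
    simp only [tr_smul, tensor_eq, gB_tt, tr_add, block_blockwise, chan_tr hΨ]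
    have : ∀ a, q a * (γ * ν * tr (block (ρ a) false false) +
        (1 - γ + γ * ν) * tr (block (ρ a) true true)) =
        γ * ν * (q a * t a false) + (1 - γ + γ * ν) * (q a * t a true) := fun a => by
      simp only [ht]; ring
    simp only [this, Finset.sum_add_distrib, ← Finset.mul_sum]
    rw [hp', ← hp]; ring
  have e2 : ∑ a, (q a : ℂ) • block (qubitTensor (gadMap γ ν) Ψ (ρ a)) false false +
      ∑ a, (q a : ℂ) • block (qubitTensor (gadMap γ ν) Ψ (ρ a)) true true =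
      ∑ x : ι × Bool, ((q x.1 * t x.1 x.2 : ℝ) : ℂ) • Ψ (σ x) := by
    rw [Fintype.sum_prod_type, ← Finset.sum_add_distrib]
    refine Finset.sum_congr rfl fun a _ => ?_
    have hb' : ∀ s, Ψ (block (ρ a) s s) = (t a s : ℂ) • Ψ (σ (a, s)) := fun s => by
      conv_lhs => rw [hb (a, s)]
      rw [hΨ.1.map_smul]
    rw [Fintype.sum_bool, tensor_eq, gB_ff, gB_tt, block_blockwise, block_blockwise, hb', hb']
    push_cast
    module
  rw [e1, e2] at up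
  have low : ∀ a, q a * (∑ s, t a s * vnEntropy (Ψ (σ (a, s)))) +
      Gt (q a * 1) (q a * (e₀ * t a false + e₁ * t a true)) ≤
      q a * vnEntropy (qubitTensor (gadMap γ ν) Ψ (ρ a)) := by
    intro a
    have := (H _ (h.2.2 a)).2.2 (fun s => σ (a, s)) (fun s => hσ _) (fun s => hb (a, s))
    rw [Gt_smul (h.1 a), ← mul_add]
    exact mul_le_mul_of_nonneg_left this (h.1 a)
  have low2 := Finset.sum_le_sum fun a (_ : a ∈ Finset.univ) => low a
  have gs := (Gt_sum Finset.univ (fun a => q a * 1) (fun a => q a * (e₀ * t a false + e₁ * t a true))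
    (fun a _ => by rw [mul_one]; exact h.1 a) (fun a _ => by
      have := mul_le_mul_of_nonneg_left (H _ (h.2.2 a)).2.1 (sq_nonneg (q a))
      simp only [mul_pow, ht] at this ⊢
      linarith)).2
  have e3 : ∑ a, q a * (e₀ * t a false + e₁ * t a true) = e₀ * (1 - p) + e₁ * p := by
    rw [← hp', hp, Finset.mul_sum, Finset.mul_sum, ← Finset.sum_add_distrib]
    exact Finset.sum_congr rfl fun a _ => by ring
  simp only [mul_one] at gs low2
  rw [e3, h.2.1] at gs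
  rw [Finset.sum_add_distrib] at low2
  have e4 : ∑ x : ι × Bool, q x.1 * t x.1 x.2 * vnEntropy (Ψ (σ x)) =
      ∑ a, q a * (∑ s, t a s * vnEntropy (Ψ (σ (a, s)))) := by
    rw [Fintype.sum_prod_type]
    refine Finset.sum_congr rfl fun a _ => ?_
    rw [Finset.mul_sum]
    exact Finset.sum_congr rfl fun s _ => by ring
  rw [gadRate_eq γ ν p _ he]
  unfold chi
  rw [e4]
  linarith

/-! ### products -/

theorem tensor_kron {Φ : Matrix Bool Bool ℂ → Matrix Bool Bool ℂ} (hΦ : IsLinearMap ℂ Φ)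
    {Ψ : Matrix d d ℂ → Matrix e e ℂ} (hΨ : IsLinearMap ℂ Ψ) (A : Matrix Bool Bool ℂ)
    (B : Matrix d d ℂ) : qubitTensor Φ Ψ (A ⊗ₖ B) = Φ A ⊗ₖ Ψ B := by
  have hb : ∀ s t, block (A ⊗ₖ B) s t = A s t • B := fun s t => by
    ext i j; simp [block]
  have hA : Φ A = ∑ s, ∑ t, A s t • Φ (single s t 1) := by
    conv_lhs => rw [matrix_eq_sum_single A]
    change (IsLinearMap.mk' Φ hΦ) _ = _
    simp only [map_sum]
    refine Finset.sum_congr rfl fun s _ => Finset.sum_congr rfl fun t _ => ?_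
    rw [IsLinearMap.mk'_apply, ← hΦ.map_smul]
    simp
  ext ⟨s, i⟩ ⟨t, j⟩
  simp only [qubitTensor, of_apply, hb, hΨ.map_smul, kroneckerMap_apply, qubitCoeff]
  rw [hA]
  simp only [Matrix.sum_apply, Matrix.smul_apply, smul_eq_mul, Finset.sum_mul]
  exact Finset.sum_congr rfl fun s' _ => Finset.sum_congr rfl fun t' _ => by ring

theorem density_kron {A : Matrix d d ℂ} {B : Matrix e e ℂ} (hA : IsDensity A) (hB : IsDensity B) :
    IsDensity (A ⊗ₖ B) :=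
  ⟨hA.1.kronecker hB.1, by rw [trace_kronecker, hA.2, hB.2, mul_one]⟩

theorem vn_tensor_kron {Φ : Matrix Bool Bool ℂ → Matrix Bool Bool ℂ} (hΦ : IsChannel Φ)
    {Ψ : Matrix d d ℂ → Matrix e e ℂ} (hΨ : IsChannel Ψ) {A : Matrix Bool Bool ℂ}
    {B : Matrix d d ℂ} (hA : IsDensity A) (hB : IsDensity B) :
    vnEntropy (qubitTensor Φ Ψ (A ⊗ₖ B)) = vnEntropy (Φ A) + vnEntropy (Ψ B) := by
  rw [tensor_kron hΦ.1 hΨ.1]
  exact vn_kron (chan_density hΦ hA).1.1 (chan_density hΨ hB).1.1 (chan_density hΦ hA).2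
    (chan_density hΨ hB).2

theorem step_lower {Φ : Matrix Bool Bool ℂ → Matrix Bool Bool ℂ} (hΦ : IsChannel Φ)
    {Ψ : Matrix d d ℂ → Matrix e e ℂ} (hΨ : IsChannel Ψ) {ι κ : Type*} [Fintype ι] [Fintype κ]
    {q₁ : ι → ℝ} {ρ₁ : ι → Matrix Bool Bool ℂ} {q₂ : κ → ℝ} {ρ₂ : κ → Matrix d d ℂ}
    (h₁ : Ens q₁ ρ₁) (h₂ : Ens q₂ ρ₂) :
    Ens (fun x : ι × κ => q₁ x.1 * q₂ x.2) (fun x => ρ₁ x.1 ⊗ₖ ρ₂ x.2) ∧
      chi (qubitTensor Φ Ψ) (fun x : ι × κ => q₁ x.1 * q₂ x.2) (fun x => ρ₁ x.1 ⊗ₖ ρ₂ x.2) =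
        chi Φ q₁ ρ₁ + chi Ψ q₂ ρ₂ := by
  refine ⟨⟨fun x => mul_nonneg (h₁.1 _) (h₂.1 _), ?_,
    fun x => density_kron (h₁.2.2 _) (h₂.2.2 _)⟩, ?_⟩
  · rw [Fintype.sum_prod_type]
    simp only [← Finset.mul_sum, h₂.2.1, mul_one, h₁.2.1]
  have a₁ := avg_density (q := q₁) (ρ := fun a => Φ (ρ₁ a))
    ⟨h₁.1, h₁.2.1, fun a => chan_density hΦ (h₁.2.2 a)⟩
  have a₂ := avg_density (q := q₂) (ρ := fun a => Ψ (ρ₂ a))
    ⟨h₂.1, h₂.2.1, fun a => chan_density hΨ (h₂.2.2 a)⟩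
  have e1 : ∑ x : ι × κ, ((q₁ x.1 * q₂ x.2 : ℝ) : ℂ) • qubitTensor Φ Ψ (ρ₁ x.1 ⊗ₖ ρ₂ x.2) =
      (∑ a, (q₁ a : ℂ) • Φ (ρ₁ a)) ⊗ₖ (∑ a, (q₂ a : ℂ) • Ψ (ρ₂ a)) := by
    simp only [tensor_kron hΦ.1 hΨ.1]
    ext ⟨s, i⟩ ⟨t, j⟩
    simp only [Matrix.sum_apply, Matrix.smul_apply, kroneckerMap_apply, smul_eq_mul,
      Fintype.sum_prod_type, Finset.sum_mul_sum]
    refine Finset.sum_congr rfl fun a _ => Finset.sum_congr rfl fun b _ => ?_
    push_cast; ring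
  have e2 : ∑ x : ι × κ, q₁ x.1 * q₂ x.2 * vnEntropy (qubitTensor Φ Ψ (ρ₁ x.1 ⊗ₖ ρ₂ x.2)) =
      ∑ a, q₁ a * vnEntropy (Φ (ρ₁ a)) + ∑ a, q₂ a * vnEntropy (Ψ (ρ₂ a)) := by
    simp only [fun x : ι × κ => vn_tensor_kron hΦ hΨ (h₁.2.2 x.1) (h₂.2.2 x.2), mul_add,
      Finset.sum_add_distrib, Fintype.sum_prod_type]
    congr 1
    · refine Finset.sum_congr rfl fun a _ => ?_
      rw [← Finset.sum_mul, ← Finset.mul_sum, h₂.2.1, mul_one]
    · rw [Finset.sum_comm]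
      refine Finset.sum_congr rfl fun a _ => ?_
      rw [← Finset.sum_mul, ← Finset.sum_mul, h₁.2.1, one_mul]
  unfold chi
  rw [e1, e2, vn_kron a₁.1.1 a₂.1.1 a₁.2 a₂.2]
  ring

/-! ### Kraus form -/

noncomputable def gK (γ ν : ℝ) : Fin 4 → Matrix Bool Bool ℂ :=
  ![Matrix.of fun s t => if s = t then (if s then ((√(1 - ν) * √(1 - γ) : ℝ) : ℂ) else
      ((√(1 - ν) : ℝ) : ℂ)) else 0,
    Matrix.of fun s t => if s = false ∧ t = true then ((√(1 - ν) * √γ : ℝ) : ℂ) else 0,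
    Matrix.of fun s t => if s = t then (if s then ((√ν : ℝ) : ℂ) else
      ((√ν * √(1 - γ) : ℝ) : ℂ)) else 0,
    Matrix.of fun s t => if s = true ∧ t = false then ((√ν * √γ : ℝ) : ℂ) else 0]

theorem coeff_kraus {γ ν : ℝ} (hγ : γ ∈ Set.Icc (0 : ℝ) 1) (hν : ν ∈ Set.Icc (0 : ℝ) 1)
    (s t s' t' : Bool) :
    qubitCoeff (gadMap γ ν) s t s' t' = ∑ k, gK γ ν k s s' * star (gK γ ν k t t') := by
  have h1 : ((√γ : ℝ) : ℂ) ^ 2 = γ := by rw [← Complex.ofReal_pow, Real.sq_sqrt hγ.1]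
  have h2 : ((√ν : ℝ) : ℂ) ^ 2 = ν := by rw [← Complex.ofReal_pow, Real.sq_sqrt hν.1]
  have h3 : ((√(1 - γ) : ℝ) : ℂ) ^ 2 = 1 - γ := by
    rw [← Complex.ofReal_pow, Real.sq_sqrt (by linarith [hγ.2])]; simp
  have h4 : ((√(1 - ν) : ℝ) : ℂ) ^ 2 = 1 - ν := by
    rw [← Complex.ofReal_pow, Real.sq_sqrt (by linarith [hν.2])]; simp
  cases s <;> cases t <;> cases s' <;> cases t' <;>
    simp [qubitCoeff, gadMap, gK, Fin.sum_univ_four]
  · linear_combination -h4 - ((√(1 - γ) : ℝ) : ℂ) ^ 2 * h2 - ν * h3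
  · linear_combination -((√γ : ℝ) : ℂ) ^ 2 * h4 - (1 - ν) * h1
  · linear_combination -((√(1 - γ) : ℝ) : ℂ) * h4 - ((√(1 - γ) : ℝ) : ℂ) * h2
  · linear_combination -((√(1 - γ) : ℝ) : ℂ) * h4 - ((√(1 - γ) : ℝ) : ℂ) * h2
  · linear_combination -((√γ : ℝ) : ℂ) ^ 2 * h2 - ν * h1
  · linear_combination -((√(1 - γ) : ℝ) : ℂ) ^ 2 * h4 - (1 - ν) * h3 - h2

theorem coeff_trace (γ ν : ℝ) (s' t' : Bool) :
    ∑ s, qubitCoeff (gadMap γ ν) s s s' t' = if s' = t' then 1 else 0 := by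
  cases s' <;> cases t' <;> simp [qubitCoeff, gadMap]
  ring

theorem gad_apply (γ ν : ℝ) (M : Matrix Bool Bool ℂ) (s t : Bool) :
    gadMap γ ν M s t = ∑ s', ∑ t', qubitCoeff (gadMap γ ν) s t s' t' * M s' t' := by
  cases s <;> cases t <;> simp [qubitCoeff, gadMap, add_comm]

theorem gad_channel {γ ν : ℝ} (hγ : γ ∈ Set.Icc (0 : ℝ) 1) (hν : ν ∈ Set.Icc (0 : ℝ) 1) :
    IsChannel (gadMap γ ν) := by
  have e : gadMap γ ν = R345.kraus (fun _ => 1) (gK γ ν) := by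
    funext M
    ext s t
    rw [gad_apply, R345.kraus_apply]
    simp only [coeff_kraus hγ hν, Complex.ofReal_one, one_mul]
  refine ⟨e ▸ R345.kraus_linear _ _, e ▸ R345.kraus_cp _ (fun _ => zero_le_one) _, fun M => ?_⟩
  simp [Matrix.trace, gadMap]
  ring

theorem power_channel {γ ν : ℝ} (hγ : γ ∈ Set.Icc (0 : ℝ) 1) (hν : ν ∈ Set.Icc (0 : ℝ) 1)
    (n : ℕ) : IsChannel (qubitPower n (gadMap γ ν)) := by
  have e : qubitPower n (gadMap γ ν) = R345.kraus (fun _ => 1)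
      (fun κ : Fin n → Fin 4 => Matrix.of fun σ σ' : Fin n → Bool =>
        ∏ i, gK γ ν (κ i) (σ i) (σ' i)) := by
    funext M
    ext σ τ
    rw [R345.kraus_apply]
    simp only [qubitPower, of_apply, coeff_kraus hγ hν, Complex.ofReal_one, one_mul,
      Finset.prod_univ_sum, Fintype.piFinset_univ, star_prod, Finset.prod_mul_distrib]
  refine ⟨e ▸ R345.kraus_linear _ _, e ▸ R345.kraus_cp _ (fun _ => zero_le_one) _, fun M => ?_⟩
  simp only [Matrix.trace, diag_apply, qubitPower, of_apply]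
  rw [Finset.sum_comm]
  refine Finset.sum_congr rfl fun σ' _ => ?_
  rw [Finset.sum_comm]
  have : ∀ τ' : Fin n → Bool, ∑ σ : Fin n → Bool,
      (∏ i, qubitCoeff (gadMap γ ν) (σ i) (σ i) (σ' i) (τ' i)) * M σ' τ' =
      if σ' = τ' then M σ' τ' else 0 := by
    intro τ'
    rw [← Finset.sum_mul]
    have h1 := Finset.prod_univ_sum (fun _ : Fin n => (Finset.univ : Finset Bool))
      (fun i s => qubitCoeff (gadMap γ ν) s s (σ' i) (τ' i))
    rw [Fintype.piFinset_univ] at h1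
    rw [← h1]
    simp only [coeff_trace]
    rw [Finset.prod_boole]
    simp [funext_iff]
  simp [this]

/-! ### the optimal one-qubit ensemble -/

noncomputable def pv (p : ℝ) (b : Bool) : Bool → ℂ := fun s =>
  if s then (((if b then -1 else 1) * √p : ℝ) : ℂ) else ((√(1 - p) : ℝ) : ℂ)

noncomputable def psi (p : ℝ) (b : Bool) : Matrix Bool Bool ℂ := vecMulVec (pv p b) (star (pv p b))

theorem psi_entries {p : ℝ} (hp : p ∈ Set.Icc (0 : ℝ) 1) (b : Bool) :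
    psi p b false false = 1 - p ∧ psi p b true true = p ∧
      psi p b false true = (((if b then -1 else 1) * (√p * √(1 - p)) : ℝ) : ℂ) ∧
      psi p b true false = (((if b then -1 else 1) * (√p * √(1 - p)) : ℝ) : ℂ) := by
  have h1 : ((√p : ℝ) : ℂ) * ((√p : ℝ) : ℂ) = p := by
    rw [← Complex.ofReal_mul, Real.mul_self_sqrt hp.1]
  have h2 : ((√(1 - p) : ℝ) : ℂ) * ((√(1 - p) : ℝ) : ℂ) = 1 - p := by
    rw [← Complex.ofReal_mul, Real.mul_self_sqrt (by linarith [hp.2])]; simp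
  cases b <;> simp [psi, pv, vecMulVec_apply, h1, h2, mul_comm]

theorem psi_density {p : ℝ} (hp : p ∈ Set.Icc (0 : ℝ) 1) (b : Bool) : IsDensity (psi p b) := by
  refine ⟨posSemidef_vecMulVec_self_star _, ?_⟩
  obtain ⟨h1, h2, -, -⟩ := psi_entries hp b
  simp [Matrix.trace, h1, h2]

theorem det_bool (M : Matrix Bool Bool ℂ) :
    M.det = M false false * M true true - M false true * M true false := by
  rw [← det_submatrix_equiv_self finTwoEquiv, det_fin_two]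
  rfl

theorem vn_gad_psi {γ ν p δ : ℝ} (hγ : γ ∈ Set.Icc (0 : ℝ) 1) (hν : ν ∈ Set.Icc (0 : ℝ) 1)
    (hp : p ∈ Set.Icc (0 : ℝ) 1) (b : Bool) (hδ : δ ^ 2 = vv γ ν p) :
    vnEntropy (gadMap γ ν (psi p b)) = Gt 1 δ := by
  have hd := chan_density (gad_channel hγ hν) (psi_density hp b)
  rw [vn_two hd.1.1, density_tr hd]
  unfold Gt
  rw [negMulLog_one, sub_zero, hδ]
  congr 1
  obtain ⟨h1, h2, h3, h4⟩ := psi_entries hp b
  have k1 : √p ^ 2 = p := Real.sq_sqrt hp.1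
  have k2 : √(1 - p) ^ 2 = 1 - p := Real.sq_sqrt (by linarith [hp.2])
  have k3 : √(1 - γ) ^ 2 = 1 - γ := Real.sq_sqrt (by linarith [hγ.2])
  have k4 : (if b then -1 else 1 : ℝ) ^ 2 = 1 := by cases b <;> simp
  unfold rdet
  rw [det_bool]
  simp only [gadMap, of_apply, h1, h2, h3, h4]
  simp only [and_self, if_true, Bool.false_eq_true, Bool.true_eq_false, and_false, false_and,
    if_false, and_true]
  have : ∀ x : ℝ, (1 : ℂ) - (x : ℂ) = ((1 - x : ℝ) : ℂ) := fun x => by simp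
  rw [this]
  simp only [← Complex.ofReal_mul, ← Complex.ofReal_add, ← Complex.ofReal_sub, Complex.ofReal_re]
  have e : √(1 - γ) * ((if b then -1 else 1) * (√p * √(1 - p))) *
      (√(1 - γ) * ((if b then -1 else 1) * (√p * √(1 - p)))) =
      √(1 - γ) ^ 2 * (if b then -1 else 1 : ℝ) ^ 2 * √p ^ 2 * √(1 - p) ^ 2 := by ring
  rw [e, k1, k2, k3, k4]
  unfold vv; ring

theorem vv_nonneg {γ ν : ℝ} (hγ : γ ∈ Set.Icc (0 : ℝ) 1) (hν : ν ∈ Set.Icc (0 : ℝ) 1) (p : ℝ) :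
    0 ≤ vv γ ν p := by
  have := hγ.1
  have := hν.1
  have : 0 ≤ 1 - γ := by linarith [hγ.2]
  have : 0 ≤ 1 - ν := by linarith [hν.2]
  unfold vv; positivity

theorem psi_ens {p : ℝ} (hp : p ∈ Set.Icc (0 : ℝ) 1) : Ens (fun _ : Bool => (1 / 2 : ℝ)) (psi p) :=
  ⟨fun _ => by norm_num, by simp, psi_density hp⟩

theorem chi_psi {γ ν p : ℝ} (hγ : γ ∈ Set.Icc (0 : ℝ) 1) (hν : ν ∈ Set.Icc (0 : ℝ) 1)
    (hp : p ∈ Set.Icc (0 : ℝ) 1) :
    chi (gadMap γ ν) (fun _ : Bool => (1 / 2 : ℝ)) (psi p) = gadRate γ ν p := by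
  have hδ : √(vv γ ν p) ^ 2 = vv γ ν p := Real.sq_sqrt (vv_nonneg hγ hν p)
  have e : ∑ b : Bool, ((1 / 2 : ℝ) : ℂ) • gadMap γ ν (psi p b) =
      diagonal fun s : Bool => (((if s then (1 - γ) * p + γ * ν else
        1 - ((1 - γ) * p + γ * ν)) : ℝ) : ℂ) := by
    obtain ⟨h1, h2, h3, h4⟩ := psi_entries hp false
    obtain ⟨k1, k2, k3, k4⟩ := psi_entries hp true
    ext s t
    cases s <;> cases t <;> simp [gadMap, h1, h2, h3, h4, k1, k2, k3, k4] <;> ring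
  unfold chi
  rw [e, vn_diagonal, gadRate_eq γ ν p _ hδ, binEntropy_eq_negMulLog_add_negMulLog_one_sub]
  simp only [vn_gad_psi hγ hν hp _ hδ, Fintype.sum_bool]
  simp
  ring

/-! ### tensor powers -/

/-- splitting off the first qubit -/
def cons (n : ℕ) : (Bool × (Fin n → Bool)) ≃ (Fin (n + 1) → Bool) :=
  Fin.consEquiv fun _ => Bool

theorem power_succ (Φ : Matrix Bool Bool ℂ → Matrix Bool Bool ℂ) (n : ℕ)
    (M : Matrix (Fin (n + 1) → Bool) (Fin (n + 1) → Bool) ℂ) :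
    (qubitPower (n + 1) Φ M).submatrix (cons n) (cons n) =
      qubitTensor Φ (qubitPower n Φ) (M.submatrix (cons n) (cons n)) := by
  ext ⟨s, σ⟩ ⟨t, τ⟩
  simp only [qubitPower, qubitTensor, submatrix_apply, of_apply, block]
  rw [← Equiv.sum_comp (cons n), Fintype.sum_prod_type]
  refine Finset.sum_congr rfl fun s' _ => ?_
  simp only [← Equiv.sum_comp (cons n), Fintype.sum_prod_type, Finset.mul_sum]
  rw [Finset.sum_comm]
  refine Finset.sum_congr rfl fun t' _ => Finset.sum_congr rfl fun σ' _ =>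
    Finset.sum_congr rfl fun τ' _ => ?_
  rw [Fin.prod_univ_succ, mul_assoc]
  rfl

theorem density_submatrix {M : Matrix d d ℂ} (h : IsDensity M) (f : e ≃ d) :
    IsDensity (M.submatrix f f) :=
  ⟨h.1.submatrix f, by
    rw [← h.2]
    exact Equiv.sum_comp f fun i => M i i⟩

theorem chi_succ {γ ν : ℝ} (hγ : γ ∈ Set.Icc (0 : ℝ) 1) (hν : ν ∈ Set.Icc (0 : ℝ) 1) (n : ℕ)
    {ι : Type*} [Fintype ι] {q : ι → ℝ}
    {ρ : ι → Matrix (Fin (n + 1) → Bool) (Fin (n + 1) → Bool) ℂ} (h : Ens q ρ) :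
    chi (qubitPower (n + 1) (gadMap γ ν)) q ρ =
      chi (qubitTensor (gadMap γ ν) (qubitPower n (gadMap γ ν))) q
        fun a => (ρ a).submatrix (cons n) (cons n) := by
  have hc := power_channel hγ hν (n + 1)
  have a₁ := avg_density (q := q) (ρ := fun a => qubitPower (n + 1) (gadMap γ ν) (ρ a))
    ⟨h.1, h.2.1, fun a => chan_density hc (h.2.2 a)⟩
  unfold chi
  simp only [← power_succ]
  congr 1
  · rw [← vn_submatrix a₁.1.1 (cons n)]
    congr 1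
    ext x y
    simp [Matrix.sum_apply]
  · refine Finset.sum_congr rfl fun a _ => ?_
    rw [vn_submatrix (chan_density hc (h.2.2 a)).1.1]

theorem vn_unique [Unique d] {M : Matrix d d ℂ} (h : IsDensity M) : vnEntropy M = 0 := by
  have : M = diagonal fun _ => ((1 : ℝ) : ℂ) := by
    ext i j
    rw [Subsingleton.elim i default, Subsingleton.elim j default, diagonal_apply_eq]
    simpa [Matrix.trace] using h.2
  rw [this, vn_diagonal]; simp

theorem chi_zero {γ ν : ℝ} (hγ : γ ∈ Set.Icc (0 : ℝ) 1) (hν : ν ∈ Set.Icc (0 : ℝ) 1)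
    {ι : Type*} [Fintype ι] {q : ι → ℝ}
    {ρ : ι → Matrix (Fin 0 → Bool) (Fin 0 → Bool) ℂ} (h : Ens q ρ) :
    chi (qubitPower 0 (gadMap γ ν)) q ρ = 0 := by
  have hc := power_channel hγ hν 0
  have a₁ := avg_density (q := q) (ρ := fun a => qubitPower 0 (gadMap γ ν) (ρ a))
    ⟨h.1, h.2.1, fun a => chan_density hc (h.2.2 a)⟩
  unfold chi
  rw [vn_unique a₁]
  simp [fun a => vn_unique (chan_density hc (h.2.2 a))]

theorem power_upper {γ ν : ℝ} (hγ : γ ∈ Set.Icc (0 : ℝ) 1) (hν : ν ∈ Set.Icc (0 : ℝ) 1) (n : ℕ) :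
    ∀ (ι : Type) [Fintype ι] (q : ι → ℝ) (ρ : ι → Matrix (Fin n → Bool) (Fin n → Bool) ℂ),
      Ens q ρ → ∃ p ∈ Set.Icc (0 : ℝ) 1,
        chi (qubitPower n (gadMap γ ν)) q ρ ≤ n * gadRate γ ν p := by
  induction n with
  | zero =>
    intro ι _ q ρ h
    exact ⟨0, by simp, by rw [chi_zero hγ hν h]; simp⟩
  | succ n ih =>
    intro ι _ q ρ h
    rw [chi_succ hγ hν n h]
    obtain ⟨p, hp, q', ρ', h', hle⟩ := step_upper hγ hν (power_channel hγ hν n)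
      (q := q) (ρ := fun a => (ρ a).submatrix (cons n) (cons n))
      ⟨h.1, h.2.1, fun a => density_submatrix (h.2.2 a) _⟩
    obtain ⟨p', hp', hle'⟩ := ih _ q' ρ' h'
    have n0 : (0 : ℝ) ≤ n := Nat.cast_nonneg n
    rcases le_total (gadRate γ ν p) (gadRate γ ν p') with c | c
    · refine ⟨p', hp', ?_⟩
      push_cast; linarith
    · refine ⟨p, hp, ?_⟩
      have := mul_le_mul_of_nonneg_left c n0
      push_cast; linarith

theorem power_lower {γ ν p : ℝ} (hγ : γ ∈ Set.Icc (0 : ℝ) 1) (hν : ν ∈ Set.Icc (0 : ℝ) 1)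
    (hp : p ∈ Set.Icc (0 : ℝ) 1) (n : ℕ) :
    ∃ (m : ℕ) (q : Fin m → ℝ) (ρ : Fin m → Matrix (Fin n → Bool) (Fin n → Bool) ℂ),
      IsEnsemble q ρ ∧ holevoInfo (qubitPower n (gadMap γ ν)) q ρ = n * gadRate γ ν p := by
  induction n with
  | zero =>
    have h : Ens (fun _ : Fin 1 => (1 : ℝ))
        (fun _ => (1 : Matrix (Fin 0 → Bool) (Fin 0 → Bool) ℂ)) :=
      ⟨fun _ => zero_le_one, by simp, fun _ => ⟨PosSemidef.one, by simp⟩⟩
    exact ⟨1, _, _, h, (chi_zero hγ hν h).trans (by simp)⟩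
  | succ n ih =>
    obtain ⟨m, q, ρ, h, he⟩ := ih
    obtain ⟨k1, k2⟩ := step_lower (gad_channel hγ hν) (power_channel hγ hν n) (psi_ens hp) h
    have k3 : Ens (fun x : Bool × Fin m => (1 / 2 : ℝ) * q x.2)
        (fun x => (psi p x.1 ⊗ₖ ρ x.2).submatrix (cons n).symm (cons n).symm) :=
      ⟨k1.1, k1.2.1, fun x => density_submatrix (k1.2.2 x) _⟩
    obtain ⟨m', q', ρ', h', he'⟩ := to_fin (qubitPower (n + 1) (gadMap γ ν)) k3
    refine ⟨m', q', ρ', h', ?_⟩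
    rw [he', chi_succ hγ hν n k3]
    simp only [submatrix_submatrix, Equiv.symm_comp_self, submatrix_id_id]
    rw [k2, chi_psi hγ hν hp]
    change _ + holevoInfo _ _ _ = _
    rw [he]
    push_cast; ring

theorem min_upper [Nonempty d] {γ ν : ℝ} (hγ : γ ∈ Set.Icc (0 : ℝ) 1)
    (hν : ν ∈ Set.Icc (0 : ℝ) 1) {Ψ : Matrix d d ℂ → Matrix e e ℂ} (hΨ : IsChannel Ψ)
    {ρ : Matrix (Bool × d) (Bool × d) ℂ} (h : IsDensity ρ) :
    ∃ (ρ₁ : Matrix Bool Bool ℂ) (ρ₂ : Matrix d d ℂ), IsDensity ρ₁ ∧ IsDensity ρ₂ ∧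
      vnEntropy (gadMap γ ν ρ₁) + vnEntropy (Ψ ρ₂) ≤ vnEntropy (qubitTensor (gadMap γ ν) Ψ ρ) := by
  set p := tr (block ρ true true) with hp
  have t0 : ∀ s, 0 ≤ tr (block ρ s s) := fun s => tr_nonneg (block_psd h.1 s)
  have t1 : tr (block ρ false false) = 1 - p := by
    have := tr_blocks ρ
    rw [density_tr h] at this
    linarith
  have hp01 : p ∈ Set.Icc (0 : ℝ) 1 := ⟨t0 true, by linarith [t0 false]⟩
  choose σ hσ hb using fun s : Bool => exists_normalize (block_psd h.1 s)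
  obtain ⟨e₀, e₁, he, H⟩ := single_bound hγ hν hΨ p
  have k := (H ρ h).2.2 σ hσ hb
  rw [Fintype.sum_bool, t1, ← hp, ← vn_gad_psi hγ hν hp01 false he] at k
  rcases le_total (vnEntropy (Ψ (σ false))) (vnEntropy (Ψ (σ true))) with c | c
  · refine ⟨psi p false, σ false, psi_density hp01 _, hσ _, ?_⟩
    nlinarith [hp01.1, hp01.2]
  · refine ⟨psi p false, σ true, psi_density hp01 _, hσ _, ?_⟩
    nlinarith [hp01.1, hp01.2]

end Crest.Agent.R341
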