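import Crest.Agent.R341.Entropy

set_option autoImplicit false
set_option linter.unusedSectionVars false
set_option linter.unusedSimpArgs false

namespace Crest.Agent.R341

open Matrix Real Crest.Quantum MeasureTheory
open scoped ComplexOrder MatrixOrder Kronecker

variable {n : Type*} [Fintype n] [DecidableEq n]

theorem posDef_smul_one {τ : ℝ} (hτ : 0 < τ) : ((τ : ℂ) • (1 : Matrix n n ℂ)).PosDef :=
  PosDef.one.smul (Complex.zero_lt_real.2 hτ)

theorem posDef_shift {τ : ℝ} (hτ : 0 < τ) {M : Matrix n n ℂ} (h : M.PosSemidef) :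
    ((τ : ℂ) • (1 : Matrix n n ℂ) + M).PosDef := (posDef_smul_one hτ).add_posSemidef h

theorem blocks_22 {X Y Z : Matrix n n ℂ} (h : (fromBlocks X Y Yᴴ Z).PosSemidef) :
    Z.PosSemidef := h.submatrix Sum.inr

theorem blocks_11 {X Y Z : Matrix n n ℂ} (h : (fromBlocks X Y Yᴴ Z).PosSemidef) :
    X.PosSemidef := h.submatrix Sum.inl

theorem blocks_add {X Y Z A : Matrix n n ℂ} (h : (fromBlocks X Y Yᴴ Z).PosSemidef)
    (hA : A.PosSemidef) : (fromBlocks (X + A) Y Yᴴ Z).PosSemidef := by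
  have h2 := hA.conjTranspose_mul_mul_same (fromCols (1 : Matrix n n ℂ) (0 : Matrix n n ℂ))
  have e : fromBlocks (X + A) Y Yᴴ Z = fromBlocks X Y Yᴴ Z +
      (fromCols (1 : Matrix n n ℂ) (0 : Matrix n n ℂ))ᴴ * A *
        fromCols (1 : Matrix n n ℂ) (0 : Matrix n n ℂ) := by
    rw [conjTranspose_fromCols_eq_fromRows_conjTranspose, fromRows_mul, fromRows_mul_fromCols,
      fromBlocks_add]
    simp
  rw [e]; exact h.add h2

theorem tr_fromBlocks (X Y Y' Z : Matrix n n ℂ) : tr (fromBlocks X Y Y' Z) = tr X + tr Z := by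
  simp [tr_eq_sum, Fintype.sum_sum_type]

/-- factorisation through the square root of a diagonal corner -/
theorem exists_factor (x : n → ℝ) (hx : ∀ i, 0 ≤ x i) {Y Z : Matrix n n ℂ}
    (h : (fromBlocks (diagonal fun i => (x i : ℂ)) Y Yᴴ Z).PosSemidef) :
    ∃ C : Matrix n n ℂ, Y = (diagonal fun i => ((√(x i) : ℝ) : ℂ)) * Cᴴ ∧
      (Z - C * Cᴴ).PosSemidef := by
  set P : Matrix n n ℂ := diagonal fun i => ((√(x i) : ℝ) : ℂ) with hP
  set D : Matrix n n ℂ := diagonal fun i => (((√(x i))⁻¹ : ℝ) : ℂ) with hD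
  have PH : Pᴴ = P := herm_diag _
  have PP : P * P = diagonal fun i => (x i : ℂ) := by
    rw [hP, diagonal_mul_diagonal]
    congr 1; ext i
    rw [← Complex.ofReal_mul, Real.mul_self_sqrt (hx i)]
  have row0 : ∀ i, x i = 0 → ∀ k, Y i k = 0 := by
    intro i hi k
    have h1 := (h.dotProduct_mulVec_zero_iff (Pi.single (Sum.inl i) 1)).1 (by simp [hi])
    have h2 := congrFun h1 (Sum.inr k)
    simpa using h2
  have hY : Y = P * (D * Y) := by
    ext i k
    rw [hP, hD, diagonal_mul, diagonal_mul]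
    rcases (hx i).eq_or_lt with h0 | h0
    · rw [row0 i h0.symm k]; simp
    · rw [← mul_assoc, ← Complex.ofReal_mul, mul_inv_cancel₀ (Real.sqrt_pos.2 h0).ne']
      simp
  have PD : P * D = D * P := by
    rw [hP, hD, diagonal_mul_diagonal, diagonal_mul_diagonal]
    congr 1; ext i; ring
  refine ⟨(D * Y)ᴴ, by rwa [conjTranspose_conjTranspose], ?_⟩
  rw [conjTranspose_conjTranspose]
  set E := D * Y with hE
  have hT : P * (D * E) = E := by
    rw [← Matrix.mul_assoc, PD, Matrix.mul_assoc, ← hY]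
  have p := h.conjTranspose_mul_mul_same (fromRows (-(D * E)) (1 : Matrix n n ℂ))
  have e : (fromRows (-(D * E)) (1 : Matrix n n ℂ))ᴴ *
      fromBlocks (diagonal fun i => (x i : ℂ)) Y Yᴴ Z * fromRows (-(D * E)) (1 : Matrix n n ℂ) =
      Z - Eᴴ * E := by
    rw [conjTranspose_fromRows_eq_fromCols_conjTranspose, fromCols_mul_fromBlocks,
      fromCols_mul_fromRows, ← PP]
    have h1 : (D * E)ᴴ * P = Eᴴ := by
      conv_rhs => rw [← hT]
      rw [conjTranspose_mul P, PH]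
    have h2 : Yᴴ = Eᴴ * P := by
      conv_lhs => rw [hY]
      rw [conjTranspose_mul P, PH]
    have h3 : (D * E)ᴴ * Y = Eᴴ * E := by
      conv_lhs => rhs; rw [hY]
      rw [← Matrix.mul_assoc, h1]
    rw [conjTranspose_neg, conjTranspose_one, Matrix.one_mul, Matrix.one_mul, Matrix.mul_one,
      Matrix.neg_mul, Matrix.neg_mul, h3, ← Matrix.mul_assoc, h1, h2]
    simp
    abel
  rwa [e] at p

theorem det_ineq (x : n → ℝ) (hx : ∀ i, 0 ≤ x i) {C Z A : Matrix n n ℂ} (hA : A.PosSemidef)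
    (hZ : (Z - C * Cᴴ).PosSemidef) {τ : ℝ} (hτ : 0 < τ) :
    rdet ((τ : ℂ) • (1 : Matrix n n ℂ) + Z) * rdet ((τ : ℂ) • (1 : Matrix n n ℂ) + A) *
      ∏ i, (1 + τ * x i / ((τ + (A i i).re) * (τ + ((Cᴴ * C) i i).re))) ≤
    rdet ((τ : ℂ) • (1 : Matrix (n ⊕ n) (n ⊕ n) ℂ) +
      fromBlocks ((diagonal fun i => (x i : ℂ)) + A) ((diagonal fun i => ((√(x i) : ℝ) : ℂ)) * Cᴴ)
        ((diagonal fun i => ((√(x i) : ℝ) : ℂ)) * Cᴴ)ᴴ Z) := by
  set P : Matrix n n ℂ := diagonal fun i => ((√(x i) : ℝ) : ℂ) with hP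
  have PH : Pᴴ = P := herm_diag _
  have PP : P * P = diagonal fun i => (x i : ℂ) := by
    rw [hP, diagonal_mul_diagonal]
    congr 1; ext i
    rw [← Complex.ofReal_mul, Real.mul_self_sqrt (hx i)]
  have hCC := posSemidef_self_mul_conjTranspose C
  have hZ' : Z.PosSemidef := by
    have := hZ.add hCC
    rwa [sub_add_cancel] at this
  set Gz := (τ : ℂ) • (1 : Matrix n n ℂ) + Z with hGz
  set G₁ := (τ : ℂ) • (1 : Matrix n n ℂ) + A with hG₁
  set Gc := (τ : ℂ) • (1 : Matrix n n ℂ) + C * Cᴴ with hGc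
  set B := (1 : Matrix n n ℂ) + ((τ⁻¹ : ℝ) : ℂ) • (Cᴴ * C) with hB
  have pz : Gz.PosDef := posDef_shift hτ hZ'
  have p1 : G₁.PosDef := posDef_shift hτ hA
  have pc : Gc.PosDef := posDef_shift hτ hCC
  have pB : B.PosDef := PosDef.one.add_posSemidef
    ((posSemidef_conjTranspose_mul_self C).smul (Complex.zero_le_real.2 (by positivity)))
  have hτc : (τ : ℂ) ≠ 0 := by exact_mod_cast hτ.ne'
  have eB : B⁻¹ = 1 - Cᴴ * Gc⁻¹ * C := by
    apply inv_eq_right_inv
    have : B * Cᴴ = ((τ⁻¹ : ℝ) : ℂ) • (Cᴴ * Gc) := by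
      rw [hB, hGc, Matrix.add_mul, Matrix.mul_add, Matrix.one_mul, Matrix.mul_smul,
        Matrix.mul_one, smul_add, smul_smul, Matrix.smul_mul, Matrix.mul_assoc]
      push_cast
      rw [inv_mul_cancel₀ hτc, one_smul]
    rw [Matrix.mul_sub, Matrix.mul_one, ← Matrix.mul_assoc, ← Matrix.mul_assoc, this,
      Matrix.smul_mul, Matrix.smul_mul, Matrix.mul_nonsing_inv_cancel_right _ _ (det_unit pc), hB]
    abel
  have eM : (τ : ℂ) • (1 : Matrix (n ⊕ n) (n ⊕ n) ℂ) +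
      fromBlocks ((diagonal fun i => (x i : ℂ)) + A) (P * Cᴴ) (P * Cᴴ)ᴴ Z =
      fromBlocks (G₁ + P * P) (P * Cᴴ) (P * Cᴴ)ᴴ Gz := by
    rw [← fromBlocks_one, fromBlocks_smul, fromBlocks_add, PP, hG₁]
    simp only [smul_zero, zero_add]
    congr 1
    abel
  let _ := pz.isUnit.invertible
  set S := G₁ + P * P - P * Cᴴ * Gz⁻¹ * (P * Cᴴ)ᴴ with hS
  have hle : (S - (G₁ + P * B⁻¹ * Pᴴ)).PosSemidef := by
    have q : (Gz - Gc).PosSemidef := by
      have : Gz - Gc = Z - C * Cᴴ := by rw [hGz, hGc]; abel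
      rwa [this]
    have q2 := (inv_anti pc q).mul_mul_conjTranspose_same (P * Cᴴ)
    have : S - (G₁ + P * B⁻¹ * Pᴴ) = P * Cᴴ * (Gc⁻¹ - Gz⁻¹) * (P * Cᴴ)ᴴ := by
      rw [hS, eB, conjTranspose_mul, conjTranspose_conjTranspose, PH]
      simp only [Matrix.mul_sub, Matrix.sub_mul, Matrix.mul_assoc, Matrix.mul_one,
        Matrix.one_mul]
      abel
    rwa [this]
  have pS := posDef_of_le (posDef_FF (P := P) p1 pB) hle
  have m1 := rdet_mono (posDef_FF (P := P) p1 pB) hle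
  have d1 : rdet (fromBlocks (G₁ + P * P) (P * Cᴴ) (P * Cᴴ)ᴴ Gz) = rdet Gz * rdet S := by
    unfold rdet
    rw [det_fromBlocks₂₂, invOf_eq_nonsing_inv, ← hS, ← rdet_coe pz.1, ← rdet_coe pS.1]
    simp
  have f := FF_ge (fun i => √(x i)) p1 pB
  unfold FF at f
  rw [le_div_iff₀ (rdet_pos p1)] at f
  have e : ∏ i, (1 + τ * x i / ((τ + (A i i).re) * (τ + ((Cᴴ * C) i i).re))) =
      ∏ j, (1 + √(x j) ^ 2 / ((G₁ j j).re * (B j j).re)) := by
    refine Finset.prod_congr rfl fun j _ => ?_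
    have a0 := diag_re_nonneg hA j
    have b0 := diag_re_nonneg (posSemidef_conjTranspose_mul_self C) j
    have e1 : (G₁ j j).re = τ + (A j j).re := by simp [hG₁]
    have e2 : (B j j).re = 1 + τ⁻¹ * ((Cᴴ * C) j j).re := by
      rw [hB, Matrix.add_apply, Matrix.smul_apply, one_apply_eq, Complex.add_re, smul_eq_mul,
        Complex.re_ofReal_mul, Complex.one_re]
    rw [e1, e2, Real.sq_sqrt (hx j)]
    field_simp
  rw [eM, d1, e, mul_assoc]
  refine mul_le_mul_of_nonneg_left ?_ (rdet_pos pz).le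
  rw [mul_comm]
  exact f.trans m1

theorem P4_diag (x : n → ℝ) (hx : ∀ i, 0 ≤ x i) {Y Z A : Matrix n n ℂ} (hA : A.PosSemidef)
    (h : (fromBlocks (diagonal fun i => (x i : ℂ)) Y Yᴴ Z).PosSemidef) :
    ∑ i, negMulLog (x i) + vnEntropy A + vnEntropy Z - phi (∑ i, x i) (tr A) (tr Z) ≤
      vnEntropy (fromBlocks ((diagonal fun i => (x i : ℂ)) + A) Y Yᴴ Z) := by
  obtain ⟨C, hY, hZ⟩ := exists_factor x hx h
  have hM := blocks_add h hA
  have hZ' := blocks_22 h
  have hB := posSemidef_conjTranspose_mul_self C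
  set a : n → ℝ := fun i => (A i i).re
  set b : n → ℝ := fun i => ((Cᴴ * C) i i).re
  have a0 : ∀ i, 0 ≤ a i := diag_re_nonneg hA
  have b0 : ∀ i, 0 ≤ b i := diag_re_nonneg hB
  set M := fromBlocks ((diagonal fun i => (x i : ℂ)) + A) Y Yᴴ Z with hMdef
  have trM : tr M = ∑ i, x i + tr A + tr Z := by
    rw [hMdef, tr_fromBlocks, tr_add, tr_eq_sum (diagonal _)]
    simp
  have point : ∀ τ ∈ Set.Ioi (0 : ℝ),
      ∑ i, kk (x i) τ + KM A τ + KM Z τ - ∑ i, fI (x i) (a i) (b i) τ ≤ KM M τ := by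
    intro τ hτ
    have hτ : 0 < τ := hτ
    have d := det_ineq x hx hA hZ hτ
    rw [← hY] at d
    have r1 := rdet_pos (posDef_shift hτ hZ')
    have r2 := rdet_pos (posDef_shift hτ hA)
    have pos : ∀ i, 0 < 1 + τ * x i / ((τ + a i) * (τ + b i)) := fun i => by
      have := a0 i; have := b0 i; have := hx i; positivity
    have r3 : 0 < ∏ i, (1 + τ * x i / ((τ + a i) * (τ + b i))) := Finset.prod_pos fun i _ => pos i
    have l := log_le_log (mul_pos (mul_pos r1 r2) r3) d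
    rw [log_mul (mul_pos r1 r2).ne' r3.ne', log_mul r1.ne' r2.ne',
      log_prod fun i _ => (pos i).ne'] at l
    unfold KM kk fI
    rw [trM, Finset.sum_sub_distrib, Finset.sum_sub_distrib, ← Finset.sum_mul, Fintype.card_sum]
    push_cast
    linarith
  have i1 : ∀ i ∈ Finset.univ, Integrable (fun τ => kk (x i) τ) (volume.restrict (Set.Ioi 0)) :=
    fun i _ => kk_integrable (hx i)
  have i2 : ∀ i ∈ Finset.univ, Integrable (fun τ => fI (x i) (a i) (b i) τ)
      (volume.restrict (Set.Ioi 0)) := fun i _ => (fI_int (hx i) (a0 i) (b0 i)).1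
  have j1 := integrable_finsetSum _ i1
  have j2 := integrable_finsetSum _ i2
  have j3 : Integrable (fun τ => ∑ i, kk (x i) τ + KM A τ) (volume.restrict (Set.Ioi 0)) :=
    j1.add (KM_int hA).1
  have j4 : Integrable (fun τ => ∑ i, kk (x i) τ + KM A τ + KM Z τ)
      (volume.restrict (Set.Ioi 0)) := j3.add (KM_int hZ').1
  have mono := setIntegral_mono_on (j4.sub j2) (KM_int hM).1 measurableSet_Ioi point
  erw [integral_sub j4 j2, integral_add j3 (KM_int hZ').1, integral_add j1 (KM_int hA).1,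
    integral_finsetSum _ i1, integral_finsetSum _ i2, (KM_int hA).2, (KM_int hZ').2,
    (KM_int hM).2] at mono
  simp only [kk_integral (hx _), (fI_int (hx _) (a0 _) (b0 _)).2] at mono
  have s1 := phi_sum Finset.univ x a b hx a0 b0
  have s2 : phi (∑ i, x i) (∑ i, a i) (∑ i, b i) ≤ phi (∑ i, x i) (tr A) (tr Z) := by
    rw [← tr_eq_sum A]
    refine phi_mono (Finset.sum_nonneg fun i _ => hx i) (tr_nonneg hA)
      (Finset.sum_nonneg fun i _ => b0 i) ?_
    have t1 : ∑ i, b i = tr (C * Cᴴ) := by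
      rw [← tr_eq_sum, tr, tr, Matrix.trace_mul_comm]
    have t2 := tr_nonneg hZ
    have t3 : tr (Z - C * Cᴴ) = tr Z - tr (C * Cᴴ) := by simp [tr]
    linarith
  linarith

/-- The key inequality for a block matrix with one extra positive term in the first corner. -/
theorem P4 {X Y Z A : Matrix n n ℂ} (hA : A.PosSemidef) (h : (fromBlocks X Y Yᴴ Z).PosSemidef) :
    vnEntropy X + vnEntropy A + vnEntropy Z - phi (tr X) (tr A) (tr Z) ≤
      vnEntropy (fromBlocks (X + A) Y Yᴴ Z) := by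
  have hX := blocks_11 h
  obtain ⟨U, h1, h2, h3⟩ := spec hX.1
  have h1' : Uᴴᴴ * Uᴴ = 1 := by rwa [conjTranspose_conjTranspose]
  set W : Matrix (n ⊕ n) (n ⊕ n) ℂ := fromBlocks Uᴴ 0 0 1 with hW
  have hW1 : Wᴴ * W = 1 := by
    rw [hW, fromBlocks_conjTranspose, fromBlocks_multiply]
    simp [h1]
  have conj : ∀ T : Matrix n n ℂ, W * fromBlocks T Y Yᴴ Z * Wᴴ =
      fromBlocks (Uᴴ * T * Uᴴᴴ) (Uᴴ * Y) (Uᴴ * Y)ᴴ Z := by
    intro T
    rw [hW, fromBlocks_conjTranspose, fromBlocks_multiply, fromBlocks_multiply]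
    simp
  have dX : Uᴴ * X * Uᴴᴴ = diagonal fun i => ((hX.1.eigenvalues i : ℝ) : ℂ) := by
    conv_lhs => rw [h3]
    rw [conjTranspose_conjTranspose]
    simp only [← Matrix.mul_assoc, h2, Matrix.one_mul]
    rw [Matrix.mul_assoc, h2, Matrix.mul_one]
  have h' := h.mul_mul_conjTranspose_same W
  rw [conj, dX] at h'
  have key := P4_diag _ hX.eigenvalues_nonneg (hA.mul_mul_conjTranspose_same Uᴴ) h'
  rw [← dX, ← Matrix.add_mul, ← Matrix.mul_add, ← conj, vn_conj hW1 (blocks_add h hA).1,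
    vn_conj h1' hA.1, tr_conj h1', ← vn_eq_sum hX.1, ← tr_eq_eig hX.1] at key
  exact key

/-- homogeneous form -/
theorem P4_St {X Y Z A : Matrix n n ℂ} (hA : A.PosSemidef) (h : (fromBlocks X Y Yᴴ Z).PosSemidef)
    {δ : ℝ} (hδ : δ ^ 2 = tr A * tr Z) :
    St X + St A + St Z + Gt (tr X + tr A + tr Z) δ ≤ St (fromBlocks (X + A) Y Yᴴ Z) := by
  have := P4 hA h
  unfold St Gt
  unfold phi at this
  rw [tr_fromBlocks, tr_add, hδ]
  linarith

end Crest.Agent.R341
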